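import Vale.Agent.P092.H839.Tri2

/-!
P092 (helper767): the vector state of `δ` is a trace on the operators commuting with the source
`V` and one target, hence invariant under the other target (the field `inv` of `RC.Pic`, frame
half).
-/

set_option linter.all false

open scoped InnerProductSpace
open Filter Topology ContinuousLinearMap

namespace Vale.Agent.P092.H767

open Vale.Agent.P092.H160 Vale.Agent.P092.SR Vale.Agent.P092.H839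

section

variable {Γ Λ : Type} [Group Γ] [Group Λ] {α : Γ →* (Ell2 Λ →L[ℂ] Ell2 Λ)}

/-- the representation `V × R₂` of `Γ × Γ` -/
noncomputable def VR₂ (hα : Frame α) : Γ × Γ →* (Ell2 (Λ × Λ) →L[ℂ] Ell2 (Λ × Λ)) where
  toFun p := VV α p.1 * RR₂ α p.2
  map_one' := by
    change VV α 1 * RR₂ α 1 = 1
    rw [map_one, map_one, one_mul]
  map_mul' p q := by
    change VV α (p.1 * q.1) * RR₂ α (p.2 * q.2) = VV α p.1 * RR₂ α p.2 * (VV α q.1 * RR₂ α q.2)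
    rw [map_mul, map_mul]
    calc VV α p.1 * VV α q.1 * (RR₂ α p.2 * RR₂ α q.2)
        = VV α p.1 * (VV α q.1 * RR₂ α p.2) * RR₂ α q.2 := by simp only [mul_assoc]
      _ = VV α p.1 * (RR₂ α p.2 * VV α q.1) * RR₂ α q.2 := by rw [comm_VV₂ hα]
      _ = _ := by simp only [mul_assoc]

theorem VR₂_apply (hα : Frame α) (g h : Γ) : VR₂ hα (g, h) = VV α g * RR₂ α h := rfl

theorem regRep_VR₂ (hα : Frame α) : RegRep (VR₂ hα) (dl 1) where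
  adj p := by
    rcases p with ⟨g, h⟩
    change adjoint (VV α g * RR₂ α h) = VV α g⁻¹ * RR₂ α h⁻¹
    rw [← star_eq_adjoint, star_mul, star_eq_adjoint, star_eq_adjoint, adj_VV hα, adj_RR₂ hα,
      comm_VV₂ hα]
  norm_one := norm_dl 1
  inner_zero p hp := by
    rcases p with ⟨g, h⟩
    change ⟪(dl 1 : Ell2 (Λ × Λ)), VV α g (RR₂ α h (dl 1))⟫_ℂ = 0
    have h1 := (regRep_prr (regRep_Ja hα) (regRep_Ja (frame_bf hα))).inner_zero (g, h) hp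
    rw [← Jf_inner, Jf_VR hα, Jf_one]
    have h2 : (tv (dl 1) (dl 1) : Ell2 (Λ × Λ)) = dl 1 := (dl_prod 1 1).symm
    rw [h2] at h1 ⊢
    rw [← inner_conj_symm, h1, map_zero]
  total v hv := by
    have h1 := hasSum_VR hα hα v
    have h2 : (fun p : Γ × Γ => ‖⟪VV α p.1 (RR₂ α p.2 (dl 1)), v⟫_ℂ‖ ^ 2) = fun _ => 0 := by
      funext p
      have h3 : ⟪VV α p.1 (RR₂ α p.2 (dl 1)), v⟫_ℂ = 0 := hv p
      rw [h3, norm_zero]
      norm_num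
    rw [h2] at h1
    have h3 := h1.unique hasSum_zero
    exact norm_eq_zero.1 (pow_eq_zero_iff two_ne_zero |>.1 h3)

theorem cmm_VR₂ (hα : Frame α) {T : Ell2 (Λ × Λ) →L[ℂ] Ell2 (Λ × Λ)}
    (hV : ∀ g, T * VV α g = VV α g * T) (hR : ∀ g, T * RR₂ α g = RR₂ α g * T) :
    Cmm (VR₂ hα) T := by
  rintro ⟨g, h⟩
  rw [VR₂_apply, ← mul_assoc, hV, mul_assoc, hR, mul_assoc]

/-- The vector state of `δ` is a trace on the commutant of `V` and `R₂`. -/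
theorem tr₂ (hα : Frame α) {S T : Ell2 (Λ × Λ) →L[ℂ] Ell2 (Λ × Λ)}
    (hSV : ∀ g, S * VV α g = VV α g * S) (hSR : ∀ g, S * RR₂ α g = RR₂ α g * S)
    (hTV : ∀ g, T * VV α g = VV α g * T) (hTR : ∀ g, T * RR₂ α g = RR₂ α g * T) :
    ⟪(dl 1 : Ell2 (Λ × Λ)), (S * T) (dl 1)⟫_ℂ = ⟪(dl 1 : Ell2 (Λ × Λ)), (T * S) (dl 1)⟫_ℂ :=
  (regRep_VR₂ hα).trace_comm (cmm_VR₂ hα hSV hSR) (cmm_VR₂ hα hTV hTR)

/-- **[Inv], first leg**: for `T` commuting with `V` and `R₂`. -/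
theorem inv₁ (hα : Frame α) {T : Ell2 (Λ × Λ) →L[ℂ] Ell2 (Λ × Λ)}
    (hV : ∀ g, T * VV α g = VV α g * T) (hR : ∀ g, T * RR₂ α g = RR₂ α g * T) (g : Γ) :
    ⟪(dl 1 : Ell2 (Λ × Λ)), (RR₁ α g * T * RR₁ α g⁻¹) (dl 1)⟫_ℂ =
      ⟪(dl 1 : Ell2 (Λ × Λ)), T (dl 1)⟫_ℂ := by
  have h1 := tr₂ hα (S := RR₁ α g) (T := T * RR₁ α g⁻¹) (fun h => (comm_VV₁ hα h g).symm)
    (fun h => comm_RR g h) (fun h => by rw [mul_assoc, ← comm_VV₁ hα h g⁻¹, ← mul_assoc, hV,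
      mul_assoc]) (fun h => by rw [mul_assoc, comm_RR g⁻¹ h, ← mul_assoc, hR, mul_assoc])
  rw [← mul_assoc, mul_assoc T, ← map_mul, inv_mul_cancel, map_one, mul_one] at h1
  exact h1

/-! ### The exchange of the legs -/

theorem swp_RR₁ (g : Γ) : swp (RR₁ α g) = RR₂ α g := swp_tens _ _

theorem swp_RR₂ (g : Γ) : swp (RR₂ α g) = RR₁ α g := swp_tens _ _

theorem swp_VV (hα : Frame α) (g : Γ) : swp (VV α g) = VV α g :=
  swp_Del fun t => hα.comm g t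

theorem sw_one : sw (dl (1 : Λ × Λ)) = (dl (1 : Λ × Λ) : Ell2 (Λ × Λ)) := by
  rw [sw, rei_dl]; rfl

theorem inner_swp (S : Ell2 (Λ × Λ) →L[ℂ] Ell2 (Λ × Λ)) :
    ⟪(dl 1 : Ell2 (Λ × Λ)), swp S (dl 1)⟫_ℂ = ⟪(dl 1 : Ell2 (Λ × Λ)), S (dl 1)⟫_ℂ := by
  have h1 : swp S (dl 1) = sw (S (dl 1)) := by
    rw [swp, mul_ap, mul_ap, sw_one]
  rw [h1]
  nth_rewrite 1 [← sw_one]
  rw [sw, inner_rei]

/-- **[Inv], second leg**: for `T` commuting with `V` and `R₁`. -/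
theorem inv₂ (hα : Frame α) {T : Ell2 (Λ × Λ) →L[ℂ] Ell2 (Λ × Λ)}
    (hV : ∀ g, T * VV α g = VV α g * T) (hR : ∀ g, T * RR₁ α g = RR₁ α g * T) (g : Γ) :
    ⟪(dl 1 : Ell2 (Λ × Λ)), (RR₂ α g * T * RR₂ α g⁻¹) (dl 1)⟫_ℂ =
      ⟪(dl 1 : Ell2 (Λ × Λ)), T (dl 1)⟫_ℂ := by
  have h1 := inv₁ hα (T := swp T)
    (fun h => by rw [← swp_VV hα h, ← swp_mul, hV, swp_mul, swp_VV hα h])
    (fun h => by rw [← swp_RR₁, ← swp_mul, hR, swp_mul]) g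
  rw [inner_swp, ← swp_RR₂, ← swp_RR₂, ← swp_mul, ← swp_mul, inner_swp] at h1
  exact h1

end

end Vale.Agent.P092.H767
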