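import Vale.Agent.P092.H34.PicD
import Vale.Agent.P092.H103.CA1
import Vale.Agent.P092.H767.InvF

/-!
P092 (helper767): operators on `L²(E / Γ; K)` commuting with the multiplications and with the
induced representation of the whole group are constant fields; the field `inv` of `RC.Pic` in the
concrete picture.
-/

set_option linter.all false

open scoped InnerProductSpace ENNReal
open Set Filter Topology MeasureTheory ContinuousLinearMap

namespace Vale.Agent.P092.H767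

open Vale.Agent.P092.H790 Vale.Agent.P092.H85 Vale.Agent.P092.H160 Vale.Agent.P092.SR
  Vale.Agent.P092.H103 Vale.Agent.P092.H34 Vale.Agent.P092.H839 Vale.Agent.P092.RC

section mv

variable {X : Type} [MeasurableSpace X] {μ : Measure X} {K : Type} [NormedAddCommGroup K]
  [InnerProductSpace ℂ K] [CompleteSpace K]

/-- measurable version of a field -/
theorem exists_mv {I : Type} [Countable I] (b : HilbertBasis I ℂ K) {A : X → K →L[ℂ] K}
    (hA : ∀ y, AEStronglyMeasurable (fun x => A x y) μ) :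
    ∃ B : X → K →L[ℂ] K, (∀ y, StronglyMeasurable fun x => B x y) ∧ ∀ᵐ x ∂μ, B x = A x := by
  classical
  obtain ⟨f, hf⟩ : ∃ f : I → X → K, f = fun i => (hA (b i)).mk _ := ⟨_, rfl⟩
  have hfm : ∀ i, StronglyMeasurable (f i) := fun i => by
    rw [hf]; exact (hA (b i)).stronglyMeasurable_mk
  have hfe : ∀ᵐ x ∂μ, ∀ i, A x (b i) = f i x := by
    rw [ae_all_iff]
    intro i
    rw [hf]
    exact (hA (b i)).ae_eq_mk
  obtain ⟨N, hN⟩ : ∃ N : Set X, N = toMeasurable μ {x | ¬ ∀ i, A x (b i) = f i x} := ⟨_, rfl⟩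
  have hNm : MeasurableSet N := by rw [hN]; exact measurableSet_toMeasurable _ _
  have hN0 : μ N = 0 := by rw [hN, measure_toMeasurable]; exact ae_iff.1 hfe
  have hNs : ∀ x, x ∉ N → ∀ i, A x (b i) = f i x := by
    intro x hx
    by_contra hcon
    exact hx (by rw [hN]; exact subset_toMeasurable _ _ hcon)
  obtain ⟨B, hB⟩ : ∃ B : X → K →L[ℂ] K, B = fun x => if x ∈ N then 0 else A x := ⟨_, rfl⟩
  have hB1 : ∀ x, x ∈ N → B x = 0 := fun x hx => by rw [hB]; exact if_pos hx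
  have hB2 : ∀ x, x ∉ N → B x = A x := fun x hx => by rw [hB]; exact if_neg hx
  have hBi : ∀ i, StronglyMeasurable fun x => B x (b i) := by
    intro i
    have e : (fun x => B x (b i)) = Nᶜ.indicator (f i) := by
      funext x
      by_cases hx : x ∈ N
      · rw [Set.indicator_of_notMem (show x ∉ Nᶜ from fun h => h hx), hB1 x hx]
        rfl
      · rw [Set.indicator_of_mem (show x ∈ Nᶜ from hx), hB2 x hx, hNs x hx i]
    rw [e]
    exact (hfm i).indicator hNm.compl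
  refine ⟨B, fun y => ?_, ?_⟩
  · refine stronglyMeasurable_of_tendsto (atTop : Filter (Finset I))
      (f := fun s x => B x (∑ i ∈ s, b.repr y i • b i)) (fun s => ?_) ?_
    · simp only [map_sum, map_smul]
      exact Finset.stronglyMeasurable_fun_sum _ fun i _ => (hBi i).const_smul _
    · rw [tendsto_pi_nhds]
      intro x
      exact ((B x).continuous.tendsto _).comp (b.hasSum_repr y)
  · have h1 : ∀ᵐ x ∂μ, x ∉ N := by
      rw [ae_iff]
      simpa using hN0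
    filter_upwards [h1] with x hx
    exact hB2 x hx

end mv

section fx

variable {E : Type} [Group E] [TopologicalSpace E] [IsTopologicalGroup E] [LocallyCompactSpace E]
  [SecondCountableTopology E] [T2Space E] [MeasurableSpace E] [BorelSpace E]
  {Γ : Subgroup E} [DiscreteTopology Γ] [MeasurableSpace (E ⧸ Γ)] [BorelSpace (E ⧸ Γ)]
  {ν : Measure (E ⧸ Γ)} [IsProbabilityMeasure ν] (hν : ∀ g : E, ν.map (fun x => g • x) = ν)
  {K : Type} [NormedAddCommGroup K] [InnerProductSpace ℂ K] [CompleteSpace K]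
  {V : Γ →* (K →L[ℂ] K)} [Countable Γ] {I : Type} [Countable I]

include hν in
/-- A covariant field has values in the commutant of `V`. -/
theorem field_comm_ae (b : HilbertBasis I ℂ K) {A : E ⧸ Γ → K →L[ℂ] K}
    (hA : ∀ y, StronglyMeasurable fun x => A x y)
    (hall : ∀ g : E, ∀ᵐ x ∂ν, A (g • x) = V (coc Γ g x) * A x * V (coc Γ g x)⁻¹) :
    ∀ᵐ x ∂ν, ∀ γ, A x * V γ = V γ * A x := by
  haveI hcl : IsClosed (Γ : Set E) := Subgroup.isClosed_of_discrete
  have hsm : Measurable fun p : E × (E ⧸ Γ) => p.1 • p.2 := continuous_smul.measurable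
  have hcm : ∀ v : Γ, MeasurableSet {p : E × (E ⧸ Γ) | coc Γ p.1 p.2 = v} := by
    intro v
    have e : {p : E × (E ⧸ Γ) | coc Γ p.1 p.2 = v} =
        (fun p : E × (E ⧸ Γ) => (sec Γ (p.1 • p.2))⁻¹ * p.1 * sec Γ p.2) ⁻¹' {(v : E)} := by
      ext p
      simp [Subtype.ext_iff, coc_coe]
    rw [e]
    have h1 : Measurable fun p : E × (E ⧸ Γ) => (sec Γ (p.1 • p.2))⁻¹ * p.1 * sec Γ p.2 :=
      ((((sec_meas Γ).comp hsm).inv.mul measurable_fst).mul ((sec_meas Γ).comp measurable_snd))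
    exact h1 (measurableSet_singleton _)
  have hNm : MeasurableSet {p : E × (E ⧸ Γ) |
      A (p.1 • p.2) = V (coc Γ p.1 p.2) * A p.2 * V (coc Γ p.1 p.2)⁻¹} := by
    have e : {p : E × (E ⧸ Γ) | A (p.1 • p.2) = V (coc Γ p.1 p.2) * A p.2 * V (coc Γ p.1 p.2)⁻¹} =
        ⋃ v : Γ, ({p : E × (E ⧸ Γ) | coc Γ p.1 p.2 = v} ∩
          ⋂ i : I, {p : E × (E ⧸ Γ) | A (p.1 • p.2) (b i) = V v (A p.2 (V v⁻¹ (b i)))}) := by
      ext p
      constructor
      · intro hp
        refine mem_iUnion.2 ⟨coc Γ p.1 p.2, rfl, mem_iInter.2 fun i => ?_⟩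
        have hp' : A (p.1 • p.2) = V (coc Γ p.1 p.2) * A p.2 * V (coc Γ p.1 p.2)⁻¹ := hp
        change A (p.1 • p.2) (b i) = _
        rw [hp']
        rfl
      · intro hp
        obtain ⟨v, hv1, hv2⟩ := mem_iUnion.1 hp
        have hv1' : coc Γ p.1 p.2 = v := hv1
        change A (p.1 • p.2) = V (coc Γ p.1 p.2) * A p.2 * V (coc Γ p.1 p.2)⁻¹
        rw [hv1']
        exact ext_basis b fun i => mem_iInter.1 hv2 i
    rw [e]
    refine MeasurableSet.iUnion fun v => (hcm v).inter (MeasurableSet.iInter fun i => ?_)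
    have s1 : StronglyMeasurable fun p : E × (E ⧸ Γ) => A (p.1 • p.2) (b i) :=
      (hA (b i)).comp_measurable hsm
    have s2 : StronglyMeasurable fun p : E × (E ⧸ Γ) => V v (A p.2 (V v⁻¹ (b i))) :=
      (V v).continuous.comp_stronglyMeasurable ((hA (V v⁻¹ (b i))).comp_measurable measurable_snd)
    exact StronglyMeasurable.measurableSet_eq_fun s1 s2
  set m : Measure E := Measure.haar with hm
  have h2 : ∀ᵐ x ∂ν, ∀ᵐ g ∂m, A (g • x) = V (coc Γ g x) * A x * V (coc Γ g x)⁻¹ :=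
    (Measure.ae_ae_comm (μ := m) (ν := ν) hNm).1 (Eventually.of_forall hall)
  filter_upwards [h2] with x hx γ
  set σ : E := sec Γ x with hσ
  set k : E := σ * (γ : E) * σ⁻¹ with hk
  have hkx : k • x = x := by
    have e1 : ((σ : E) : E ⧸ Γ) = x := sec_coe Γ x
    rw [← e1]
    change ((k * σ : E) : E ⧸ Γ) = _
    rw [hk, inv_mul_cancel_right]
    rw [QuotientGroup.eq]
    have : (σ * (γ : E))⁻¹ * σ = ((γ⁻¹ : Γ) : E) := by
      rw [Subgroup.coe_inv]; group
    rw [this]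
    exact (γ⁻¹).2
  have hck : coc Γ k x = γ := by
    apply Subtype.ext
    rw [coc_coe, hkx, ← hσ, hk]
    group
  have hx' : ∀ᵐ g ∂m, A ((g * k) • x) = V (coc Γ (g * k) x) * A x * V (coc Γ (g * k) x)⁻¹ := by
    rw [ae_iff] at hx ⊢
    have := (measure_mul_right_null m k (s := {g | ¬ A (g • x) =
      V (coc Γ g x) * A x * V (coc Γ g x)⁻¹})).2 hx
    exact this
  haveI : NeZero m := ⟨by
    rw [hm]
    exact NeZero.ne _⟩
  obtain ⟨g, hg1, hg2⟩ := (hx.and hx').exists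
  rw [mul_smul, hkx, coc_mul, hkx, hck, hg1] at hg2
  obtain ⟨v, hv⟩ : ∃ v : Γ, v = coc Γ g x := ⟨_, rfl⟩
  rw [← hv] at hg2
  have u1 : ∀ w : Γ, V w⁻¹ * V w = 1 := fun w => by rw [← map_mul, inv_mul_cancel, map_one]
  have u2 : ∀ w : Γ, V w * V w⁻¹ = 1 := fun w => by rw [← map_mul, mul_inv_cancel, map_one]
  have h3 : A x = V γ * A x * V γ⁻¹ := by
    calc A x = V v⁻¹ * (V v * A x * V v⁻¹) * V v := by
          rw [← mul_assoc, ← mul_assoc, u1, one_mul, mul_assoc, u1, mul_one]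
      _ = V v⁻¹ * (V (v * γ) * A x * V (v * γ)⁻¹) * V v := by rw [hg2]
      _ = (V v⁻¹ * V v) * (V γ * A x * V γ⁻¹) * (V v⁻¹ * V v) := by
          rw [mul_inv_rev, map_mul, map_mul]; simp only [mul_assoc]
      _ = V γ * A x * V γ⁻¹ := by rw [u1, one_mul, mul_one]
  calc A x * V γ = V γ * A x * V γ⁻¹ * V γ := by rw [← h3]
    _ = V γ * A x := by rw [mul_assoc, u1, mul_one]

variable (hV : ∀ v, adjoint (V v) = V v⁻¹)

include hV in
/-- **Constant fields.** An operator commuting with the multiplications and with the induced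
representation is a constant field with value in the commutant of `V`. -/
theorem exists_const (b : HilbertBasis I ℂ K) {T : Lp K 2 ν →L[ℂ] Lp K 2 ν} (hT : Dcm T)
    (hπ : ∀ g, T * iro hν V g = iro hν V g * T) :
    ∃ A : K →L[ℂ] K, T = A.compLpL 2 ν ∧ ∀ v, A * V v = V v * A := by
  obtain ⟨A', -, hA'm, hA'⟩ := hT.exists_fld b
  obtain ⟨A, hAm, hAA⟩ := exists_mv b hA'm
  have hTA : Fld T A := hA'.congr (by
    filter_upwards [hAA] with x hx
    exact hx.symm)
  have hall : ∀ g : E, ∀ᵐ x ∂ν, A (g • x) = V (coc Γ g x) * A x * V (coc Γ g x)⁻¹ := by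
    intro g
    have h1 : Fld (iro hν V g * T * iro hν V g⁻¹) (fun x => V (coc Γ g (g⁻¹ • x)) * A (g⁻¹ • x) *
      V (coc Γ g (g⁻¹ • x))⁻¹) := Ind.fld_conj (d := cdat ν hν) hV hTA g
    have h2 : iro hν V g * T * iro hν V g⁻¹ = T := by
      rw [← hπ, mul_assoc]
      have h3 : iro hν V g * iro hν V g⁻¹ = 1 := by
        have := (irep hν hV).map_mul g g⁻¹
        rw [mul_inv_cancel, map_one] at this
        exact this.symm
      rw [h3, mul_one]
    rw [h2] at h1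
    have h3 := Ind.fld_unique b hTA h1
    have h4 := ae_comp (mpres hν g) h3
    filter_upwards [h4] with x hx
    rw [inv_smul_smul] at hx
    exact hx
  have hcomm := field_comm_ae hν b hAm hall
  have hc : ∀ i, ∃ c : K, ∀ᵐ x ∂ν, A x (b i) = c := by
    intro i
    refine ae_const hν (hAm (b i)) fun g => ?_
    filter_upwards [hall g, hcomm] with x h1 h2
    rw [h1, ← h2, mul_assoc, ← map_mul, mul_inv_cancel, map_one, mul_one]
  choose c hc using hc
  obtain ⟨x₀, h1, h2⟩ := ((ae_all_iff.2 hc).and hcomm).exists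
  refine ⟨A x₀, ?_, h2⟩
  refine hTA.ext (fld_comp (A x₀)) ?_
  filter_upwards [ae_all_iff.2 hc] with x hx
  refine ext_basis b fun i => ?_
  rw [hx i, h1 i]

omit [Countable Γ] [DiscreteTopology Γ] [BorelSpace (E ⧸ Γ)] [MeasurableSpace E] [BorelSpace E]
  [CompleteSpace K] in
theorem comp_inj {A B : K →L[ℂ] K} (h : A.compLpL 2 ν = B.compLpL 2 ν) : A = B := by
  ext1 v
  have h1 : A.compLpL 2 ν (Lp.const 2 ν v) = B.compLpL 2 ν (Lp.const 2 ν v) := by rw [h]
  have h2 : ∀ᵐ x ∂ν, A v = B v := by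
    filter_upwards [fld_comp (μ := ν) A (Lp.const 2 ν v), fld_comp (μ := ν) B (Lp.const 2 ν v),
      Lp.coeFn_const (p := 2) (μ := ν) v] with x a1 a2 a3
    rw [h1, a2, a3] at a1
    exact a1.symm
  obtain ⟨x, hx⟩ := h2.exists
  exact hx

/-- the vector state of a constant field -/
theorem inner_comp_const (A : K →L[ℂ] K) (u v : K) :
    ⟪(Lp.const 2 ν u : Lp K 2 ν), A.compLpL 2 ν (Lp.const 2 ν v)⟫_ℂ = ⟪u, A v⟫_ℂ := by
  rw [L2.inner_def]
  have h1 : ∀ᵐ x ∂ν, ⟪(Lp.const 2 ν u : Lp K 2 ν) x,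
      (A.compLpL 2 ν (Lp.const 2 ν v) : Lp K 2 ν) x⟫_ℂ = ⟪u, A v⟫_ℂ := by
    filter_upwards [fld_comp (μ := ν) A (Lp.const 2 ν v), Lp.coeFn_const (p := 2) (μ := ν) u,
      Lp.coeFn_const (p := 2) (μ := ν) v] with x a1 a2 a3
    rw [a1, a2, a3]
    rfl
  rw [integral_congr_ae h1]
  simp

end fx

section pic

variable {E : Type} [Group E] [TopologicalSpace E] [IsTopologicalGroup E] [LocallyCompactSpace E]
  [SecondCountableTopology E] [T2Space E] [MeasurableSpace E] [BorelSpace E]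
  {Γ : Subgroup E} [DiscreteTopology Γ] [MeasurableSpace (E ⧸ Γ)] [BorelSpace (E ⧸ Γ)]
  {ν : Measure (E ⧸ Γ)} [IsProbabilityMeasure ν] [Countable Γ]
  (hν : ∀ g : E, ν.map (fun x => g • x) = ν)
  {Λ : Type} [Group Λ] [Countable Λ] {α : Γ →* (Ell2 Λ →L[ℂ] Ell2 Λ)} (hα : Frame α)

/-- the standard basis -/
noncomputable def hb (J : Type) : HilbertBasis J ℂ (Ell2 J) := ⟨LinearIsometryEquiv.refl ℂ _⟩

/-- the operators commuting with the functions and with `π` are constant -/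
theorem con_of_comm {T : KK ν Λ →L[ℂ] KK ν Λ} (hT : Cm (XX ν Λ) T)
    (hπ : ∀ g, T * pic hν hα g = pic hν hα g * T) :
    ∃ A : Ell2 (Λ × Λ) →L[ℂ] Ell2 (Λ × Λ), T = A.compLpL 2 ν ∧ ∀ v, A * VV α v = VV α v * A :=
  exists_const hν (adj_VV hα) (hb (Λ × Λ)) (fun S hS => hT _ ⟨S, hS, rfl⟩) hπ

theorem comm_const {A : Ell2 (Λ × Λ) →L[ℂ] Ell2 (Λ × Λ)} {B : Ell2 (Λ × Λ) →L[ℂ] Ell2 (Λ × Λ)}
    (h : A.compLpL 2 ν * B.compLpL 2 ν = B.compLpL 2 ν * A.compLpL 2 ν) : A * B = B * A := by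
  rw [← comp_mul, ← comp_mul] at h
  exact comp_inj h

/-- **[Inv]**, the field `inv` of `RC.Pic`, first leg -/
theorem inv₁_pic {T : KK ν Λ →L[ℂ] KK ν Λ} (hT : Cm (XX ν Λ ∪ Set.range (lam₂ ν α)) T)
    (hπ : ∀ g, T * pic hν hα g = pic hν hα g * T) (γ : Γ) :
    ⟪Om ν Λ, (lam₁ ν α γ * T * lam₁ ν α γ⁻¹) (Om ν Λ)⟫_ℂ = ⟪Om ν Λ, T (Om ν Λ)⟫_ℂ := by
  obtain ⟨A, rfl, hA⟩ := con_of_comm hν hα (fun w hw => hT w (Or.inl hw)) hπ
  have hR : ∀ g, A * RR₂ α g = RR₂ α g * A := fun g =>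
    comm_const (ν := ν) (hT _ (Or.inr ⟨g, rfl⟩))
  rw [lam₁_eq, lam₁_eq, ← comp_mul, ← comp_mul, Om, inner_comp_const, inner_comp_const]
  exact inv₁ hα hA hR γ

/-- **[Inv]**, the field `inv` of `RC.Pic`, second leg -/
theorem inv₂_pic {T : KK ν Λ →L[ℂ] KK ν Λ} (hT : Cm (XX ν Λ ∪ Set.range (lam₁ ν α)) T)
    (hπ : ∀ g, T * pic hν hα g = pic hν hα g * T) (γ : Γ) :
    ⟪Om ν Λ, (lam₂ ν α γ * T * lam₂ ν α γ⁻¹) (Om ν Λ)⟫_ℂ = ⟪Om ν Λ, T (Om ν Λ)⟫_ℂ := by
  obtain ⟨A, rfl, hA⟩ := con_of_comm hν hα (fun w hw => hT w (Or.inl hw)) hπ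
  have hR : ∀ g, A * RR₁ α g = RR₁ α g * A := fun g =>
    comm_const (ν := ν) (hT _ (Or.inr ⟨g, rfl⟩))
  rw [lam₂_eq, lam₂_eq, ← comp_mul, ← comp_mul, Om, inner_comp_const, inner_comp_const]
  exact inv₂ hα hA hR γ

end pic

end Vale.Agent.P092.H767
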