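import Vale.Agent.P092.H767.WPv

/-!
P092 (helper767), Team W: intertwining of the laws of random variables on projection valued
measures: products, additive and multiplicative characters.
-/

set_option linter.all false

open MeasureTheory Topology Filter Set ContinuousLinearMap
open scoped InnerProductSpace ENNReal ComplexConjugate BoundedContinuousFunction

namespace Vale.Agent.P092.H767

open Vale.Agent.P092.H466 (ext_quad WLim exists_wlim norm_le_of_quad polar)

namespace PV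

section basic

variable {Z : Type*} [MeasurableSpace Z] {K : Type*} [NormedAddCommGroup K]
  [InnerProductSpace ℂ K] [CompleteSpace K] (E : PV Z K)

theorem p_empty : E.p ∅ = 0 :=
  ext_quad fun ξ => by
    rw [E.inn MeasurableSet.empty]; simp

theorem p_compl {A : Set Z} (hA : MeasurableSet A) : E.p Aᶜ = 1 - E.p A :=
  ext_quad fun ξ => by
    rw [ContinuousLinearMap.sub_apply, one_apply_eq_self, inner_sub_right, E.inn hA, E.inn hA.compl,
      measureReal_compl hA, E.m_univ, inner_self_eq_norm_sq_to_K]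
    push_cast; rfl

theorem adj_p {A : Set Z} (hA : MeasurableSet A) : adjoint (E.p A) = E.p A :=
  ext_quad fun ξ => by
    rw [adjoint_inner_right, ← inner_conj_symm, E.inn hA, Complex.conj_ofReal]

theorem idem {A : Set Z} (hA : MeasurableSet A) : E.p A * E.p A = E.p A := by
  rw [E.mul hA hA, Set.inter_self]

theorem wlim_iUnion {f : ℕ → Set Z} (hd : Pairwise (Function.onFun Disjoint f))
    (hm : ∀ i, MeasurableSet (f i)) :
    WLim (fun n => ∑ i ∈ Finset.range n, E.p (f i)) (E.p (⋃ i, f i)) := by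
  intro ξ
  rw [E.inn (MeasurableSet.iUnion hm)]
  have hs : ∀ n, ⟪ξ, (∑ i ∈ Finset.range n, E.p (f i)) ξ⟫_ℂ
      = ((∑ i ∈ Finset.range n, (E.m ξ).real (f i) : ℝ) : ℂ) := by
    intro n
    rw [ContinuousLinearMap.sum_apply, inner_sum]
    push_cast
    exact Finset.sum_congr rfl fun i _ => E.inn (hm i) ξ
  simp_rw [hs]
  exact (Complex.continuous_ofReal.tendsto _).comp
    (Vale.Agent.P092.H466.tendsto_real_iUnion hd hm _)

theorem p_null {A B : Set Z} (hA : MeasurableSet A) (hB : MeasurableSet B) (h : A ⊆ B)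
    (h0 : E.p B = 0) : E.p A = 0 := by
  have h1 := E.mul hA hB
  rw [Set.inter_eq_left.2 h, h0, mul_zero] at h1
  exact h1.symm

theorem p_congr {A B N : Set Z} (hA : MeasurableSet A) (hB : MeasurableSet B)
    (hN : MeasurableSet N) (h0 : E.p N = 0) (h : ∀ z, z ∉ N → (z ∈ A ↔ z ∈ B)) :
    E.p A = E.p B := by
  have key : ∀ {C : Set Z}, MeasurableSet C → E.p C = E.p (C ∩ Nᶜ) := by
    intro C hC
    rw [← E.mul hC hN.compl, E.p_compl hN, h0, sub_zero, mul_one]
  rw [key hA, key hB]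
  congr 1
  ext z
  constructor
  · rintro ⟨h1, h2⟩; exact ⟨(h z h2).1 h1, h2⟩
  · rintro ⟨h1, h2⟩; exact ⟨(h z h2).2 h1, h2⟩

theorem nonempty_of_ne {A : Set Z} (h : E.p A ≠ 0) : A.Nonempty := by
  by_contra hA
  rw [Set.not_nonempty_iff_eq_empty] at hA
  rw [hA, E.p_empty] at h
  exact h rfl

end basic

end PV

section law

variable {Z : Type*} [MeasurableSpace Z] {K : Type*} [NormedAddCommGroup K]
  [InnerProductSpace ℂ K] [CompleteSpace K] {E : PV Z K} {U : K →L[ℂ] K}
  {Y : Type*} [MeasurableSpace Y] {Y' : Type*} [MeasurableSpace Y']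

/-- `U` intertwines the law of `v` and the law of `v'`. -/
def Law (E : PV Z K) (U : K →L[ℂ] K) (v v' : Z → Y) : Prop :=
  ∀ B, MeasurableSet B → U * E.p (v ⁻¹' B) = E.p (v' ⁻¹' B) * U

theorem Law.comp {v v' : Z → Y} (h : Law E U v v') {φ : Y → Y'} (hφ : Measurable φ) :
    Law E U (fun z => φ (v z)) (fun z => φ (v' z)) := fun B hB => h _ (hφ hB)

theorem Law.bc {v v' : Z → Y} (h : Law E U v v') (hv : Measurable v) (hv' : Measurable v')
    {f : Y → ℂ} (hf : BM f) : U * E.bc (fun z => f (v z)) = E.bc (fun z => f (v' z)) * U := by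
  rw [← E.map_bc hv hf, ← E.map_bc hv' hf]
  exact (E.map v hv).bc_int (E.map v' hv') h hf

theorem Law.congr {v v' v'' : Z → Y} (h : Law E U v v') (hv' : Measurable v')
    (hv'' : Measurable v'') {N : Set Z} (hN : MeasurableSet N) (h0 : E.p N = 0)
    (he : ∀ z, z ∉ N → v' z = v'' z) : Law E U v v'' := by
  intro B hB
  rw [h B hB]
  congr 1
  refine E.p_congr (hv' hB) (hv'' hB) hN h0 fun z hz => ?_
  rw [mem_preimage, mem_preimage, he z hz]

theorem Law.congr_left {v v' v'' : Z → Y} (h : Law E U v v') (hv : Measurable v)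
    (hv'' : Measurable v'') {N : Set Z} (hN : MeasurableSet N) (h0 : E.p N = 0)
    (he : ∀ z, z ∉ N → v z = v'' z) : Law E U v'' v' := by
  intro B hB
  rw [← h B hB]
  congr 1
  refine E.p_congr (hv'' hB) (hv hB) hN h0 fun z hz => ?_
  rw [mem_preimage, mem_preimage, he z hz]

theorem Law.prod {v v' : Z → Y} {w w' : Z → Y'} (h : Law E U v v') (h' : Law E U w w')
    (hv : Measurable v) (hv' : Measurable v') (hw : Measurable w) (hw' : Measurable w') :
    Law E U (fun z => (v z, w z)) (fun z => (v' z, w' z)) := by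
  have hm : Measurable fun z => (v z, w z) := hv.prodMk hw
  have hm' : Measurable fun z => (v' z, w' z) := hv'.prodMk hw'
  intro B hB
  refine MeasurableSpace.induction_on_inter (C := fun B _ => U * E.p ((fun z => (v z, w z)) ⁻¹' B) =
    E.p ((fun z => (v' z, w' z)) ⁻¹' B) * U) generateFrom_prod.symm isPiSystem_prod ?_ ?_ ?_ ?_ B hB
  · rw [Set.preimage_empty, Set.preimage_empty, E.p_empty, mul_zero, zero_mul]
  · rintro _ ⟨B₁, hB₁, B₂, hB₂, rfl⟩
    have e1 : (fun z => (v z, w z)) ⁻¹' (B₁ ×ˢ B₂) = v ⁻¹' B₁ ∩ w ⁻¹' B₂ := rfl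
    have e2 : (fun z => (v' z, w' z)) ⁻¹' (B₁ ×ˢ B₂) = v' ⁻¹' B₁ ∩ w' ⁻¹' B₂ := rfl
    rw [e1, e2, ← E.mul (hv hB₁) (hw hB₂), ← E.mul (hv' hB₁) (hw' hB₂), ← mul_assoc, h _ hB₁,
      mul_assoc, h' _ hB₂, mul_assoc]
  · intro A hA h1
    rw [Set.preimage_compl, Set.preimage_compl, E.p_compl (hm hA), E.p_compl (hm' hA), mul_sub,
      sub_mul, h1, mul_one, one_mul]
  · intro f hd hf h1
    have h2 := (E.wlim_iUnion (f := fun i => (fun z => (v z, w z)) ⁻¹' (f i))
      (fun i j hij => (hd hij).preimage _) fun i => hm (hf i)).mul_left U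
    have h3 := (E.wlim_iUnion (f := fun i => (fun z => (v' z, w' z)) ⁻¹' (f i))
      (fun i j hij => (hd hij).preimage _) fun i => hm' (hf i)).mul_right U
    have h4 : (fun n => U * ∑ i ∈ Finset.range n, E.p ((fun z => (v z, w z)) ⁻¹' (f i))) =
        fun n => (∑ i ∈ Finset.range n, E.p ((fun z => (v' z, w' z)) ⁻¹' (f i))) * U := by
      funext n
      rw [Finset.mul_sum, Finset.sum_mul]
      exact Finset.sum_congr rfl fun i _ => h1 i
    rw [h4] at h2
    rw [Set.preimage_iUnion, Set.preimage_iUnion]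
    exact h2.unique h3

/-- unitary operators -/
structure IsUn (U : K →L[ℂ] K) : Prop where
  l : adjoint U * U = 1
  r : U * adjoint U = 1

theorem IsUn.adj (h : IsUn U) : IsUn (adjoint U) := by
  refine ⟨?_, ?_⟩
  · rw [adjoint_adjoint]; exact h.r
  · rw [adjoint_adjoint]; exact h.l

theorem IsUn.mul {V : K →L[ℂ] K} (h : IsUn U) (h' : IsUn V) : IsUn (U * V) := by
  have e : adjoint (U * V) = adjoint V * adjoint U := by
    rw [← star_eq_adjoint, star_mul]; rfl
  refine ⟨?_, ?_⟩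
  · rw [e, mul_assoc, ← mul_assoc _ U V, h.l, one_mul, h'.l]
  · rw [e, mul_assoc, ← mul_assoc V, h'.r, one_mul, h.r]

theorem IsUn.norm (h : IsUn U) (ξ : K) : ‖U ξ‖ = ‖ξ‖ := by
  have h1 : ⟪U ξ, U ξ⟫_ℂ = ⟪ξ, ξ⟫_ℂ := by
    rw [← adjoint_inner_right]
    have : adjoint U (U ξ) = (adjoint U * U) ξ := rfl
    rw [this, h.l]
    rfl
  rw [inner_self_eq_norm_sq_to_K, inner_self_eq_norm_sq_to_K] at h1
  have h2 : ‖U ξ‖ ^ 2 = ‖ξ‖ ^ 2 := by exact_mod_cast h1
  exact (pow_left_inj₀ (norm_nonneg _) (norm_nonneg _) two_ne_zero).mp h2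

/-- the reflection of a projection -/
theorem isUn_refl {p : K →L[ℂ] K} (h1 : adjoint p = p) (h2 : p * p = p) :
    IsUn ((2 : ℂ) • p - 1) := by
  have e : adjoint ((2 : ℂ) • p - 1) = (2 : ℂ) • p - 1 := by
    rw [← star_eq_adjoint, star_sub, star_smul, star_one, star_eq_adjoint, h1]
    simp
  have e2 : ((2 : ℂ) • p - 1) * ((2 : ℂ) • p - 1) = 1 := by
    rw [sub_mul, mul_sub, smul_mul_smul_comm, h2, mul_one, one_mul]
    have : ((2 : ℂ) * 2) • p = (2 : ℂ) • p + (2 : ℂ) • p := by rw [← add_smul]; norm_num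
    rw [this]
    abel
  exact ⟨by rw [e, e2], by rw [e, e2]⟩

theorem comm_refl {p T : K →L[ℂ] K} (h : p * T = T * p) :
    ((2 : ℂ) • p - 1) * T = T * ((2 : ℂ) • p - 1) := by
  rw [sub_mul, mul_sub, smul_mul_assoc, h, mul_smul_comm, one_mul, mul_one]

theorem comm_of_refl {p T : K →L[ℂ] K} (h : ((2 : ℂ) • p - 1) * T = T * ((2 : ℂ) • p - 1)) :
    p * T = T * p := by
  rw [sub_mul, mul_sub, smul_mul_assoc, mul_smul_comm, one_mul, mul_one] at h
  have h1 : (2 : ℂ) • (p * T) = (2 : ℂ) • (T * p) := sub_left_injective h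
  exact smul_right_injective _ two_ne_zero h1

/-- uniqueness in the form of an intertwiner -/
theorem law_sep [TopologicalSpace Y] [PolishSpace Y] [BorelSpace Y] (hU : IsUn U)
    {v v' : Z → Y} (hv : Measurable v) (hv' : Measurable v')
    (h : ∀ x y : Y, x ≠ y → ∃ g : Y →ᵇ ℂ,
      U * E.bc (fun z => g (v z)) = E.bc (fun z => g (v' z)) * U ∧ g x ≠ g y) : Law E U v v' := by
  have hB : ∀ g : Y →ᵇ ℂ, BM (g : Y → ℂ) := fun g =>
    ⟨g.continuous.measurable, ‖g‖, g.norm_coe_le_norm⟩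
  have key := PV.ext_sep (E₁ := (E.cj U (adjoint U) hU.r hU.l rfl).map v hv) (E₂ := E.map v' hv')
    (fun x y hxy => by
      obtain ⟨g, h1, h2⟩ := h x y hxy
      refine ⟨g, ?_, h2⟩
      rw [PV.map_bc _ hv (hB g), PV.map_bc _ hv' (hB g), PV.cj_bc _ _ _ _ ((hB g).comp hv), h1,
        mul_assoc, hU.r, mul_one])
  intro B hB
  have h1 := key B hB
  change U * E.p (v ⁻¹' B) * adjoint U = E.p (v' ⁻¹' B) at h1
  rw [← h1, mul_assoc, hU.l, mul_one]

end law

/-! ### additive characters -/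

section add

variable {Z : Type*} [MeasurableSpace Z] {K : Type*} [NormedAddCommGroup K]
  [InnerProductSpace ℂ K] [CompleteSpace K] {E : PV Z K} {U : K →L[ℂ] K}
  {F : Type*} [NontriviallyNormedField F] [ProperSpace F] [MeasurableSpace F] [BorelSpace F]

/-- a nontrivial continuous additive character -/
structure IsPsi (ψ : F → ℂ) : Prop where
  cont : Continuous ψ
  add : ∀ x y, ψ (x + y) = ψ x * ψ y
  nrm : ∀ x, ‖ψ x‖ = 1
  ne : ∃ x, ψ x ≠ 1

theorem IsPsi.zero {ψ : F → ℂ} (h : IsPsi ψ) : ψ 0 = 1 := by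
  have h1 := h.add 0 0
  rw [add_zero] at h1
  have h2 : ψ 0 ≠ 0 := by
    intro h3
    have := h.nrm 0
    rw [h3, norm_zero] at this
    exact zero_ne_one this
  exact (mul_eq_left₀ h2).1 h1.symm

theorem IsPsi.neg {ψ : F → ℂ} (h : IsPsi ψ) (x : F) : ψ (-x) = conj (ψ x) := by
  have h1 : ψ x * ψ (-x) = 1 := by rw [← h.add, add_neg_cancel, h.zero]
  have h2 : ψ x * conj (ψ x) = 1 := by
    rw [RCLike.mul_conj, h.nrm]; simp
  have h3 : ψ x ≠ 0 := left_ne_zero_of_mul_eq_one h1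
  exact mul_left_cancel₀ h3 (h1.trans h2.symm)

theorem IsPsi.bm {ψ : F → ℂ} (h : IsPsi ψ) : BM ψ :=
  ⟨h.cont.measurable, 1, fun x => (h.nrm x).le⟩

theorem law_add {ψ : F → ℂ} (hψ : IsPsi ψ) (hU : IsUn U) {v v' : Z → F} (hv : Measurable v)
    (hv' : Measurable v')
    (h : ∀ t : F, U * E.bc (fun z => ψ (t * v z)) = E.bc (fun z => ψ (t * v' z)) * U) :
    Law E U v v' := by
  refine law_sep hU hv hv' fun x y hxy => ?_
  obtain ⟨c, hc⟩ := hψ.ne
  have hd : x - y ≠ 0 := sub_ne_zero.2 hxy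
  obtain ⟨t, ht⟩ : ∃ t : F, t = c * (x - y)⁻¹ := ⟨_, rfl⟩
  refine ⟨BoundedContinuousFunction.ofNormedAddCommGroup (fun s : F => ψ (t * s))
    (hψ.cont.comp (continuous_const_mul t)) 1 (fun s => (hψ.nrm _).le), h t, ?_⟩
  change ψ (t * x) ≠ ψ (t * y)
  intro he
  apply hc
  have e1 : t * x = t * y + c := by
    rw [ht]
    field_simp
    ring
  rw [e1, hψ.add] at he
  have h3 : ψ (t * y) ≠ 0 := by
    intro h4
    have := hψ.nrm (t * y)
    rw [h4, norm_zero] at this
    exact zero_ne_one this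
  exact (mul_eq_left₀ h3).1 he

end add

/-! ### multiplicative characters -/

section mul

variable {Z : Type*} [MeasurableSpace Z] {K : Type*} [NormedAddCommGroup K]
  [InnerProductSpace ℂ K] [CompleteSpace K] {E : PV Z K} {U : K →L[ℂ] K}
  {F : Type*} [NontriviallyNormedField F] [ProperSpace F] [MeasurableSpace F] [BorelSpace F]
  {J : Type*} [Countable J]

/-- a countable separating family of multiplicative characters -/
structure IsChi (χ : J → F → ℂ) : Prop where
  ms : ∀ j, Measurable (χ j)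
  mul : ∀ j x y, χ j (x * y) = χ j x * χ j y
  nrm : ∀ j x, x ≠ 0 → ‖χ j x‖ = 1
  zero : ∀ j, χ j 0 = 0
  sep : ∀ x y, (∀ j, χ j x = χ j y) → x = y
  ne : Nonempty J

variable {χ : J → F → ℂ}

theorem IsChi.le (h : IsChi χ) (j : J) (x : F) : ‖χ j x‖ ≤ 1 := by
  by_cases hx : x = 0
  · rw [hx, h.zero, norm_zero]; exact zero_le_one
  · exact (h.nrm j x hx).le

theorem IsChi.bm (h : IsChi χ) (j : J) : BM (χ j) := ⟨h.ms j, 1, h.le j⟩

theorem IsChi.emb (h : IsChi χ) : MeasurableEmbedding fun (x : F) (j : J) => χ j x := by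
  have h1 : Measurable fun (x : F) (j : J) => χ j x := measurable_pi_lambda _ fun j => h.ms j
  exact h1.measurableEmbedding fun x y hxy => h.sep x y fun j => congrFun hxy j

/-- the retraction to the unit disc -/
noncomputable def rdisc (z : ℂ) : ℂ := z * ((max 1 ‖z‖ : ℝ) : ℂ)⁻¹

theorem rdisc_cont : Continuous rdisc := by
  refine continuous_id.mul ?_
  refine Continuous.inv₀ (by fun_prop) fun z => ?_
  have h1 : (0 : ℝ) < max 1 ‖z‖ := lt_of_lt_of_le one_pos (le_max_left _ _)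
  exact_mod_cast h1.ne'

theorem rdisc_eq {z : ℂ} (hz : ‖z‖ ≤ 1) : rdisc z = z := by
  rw [rdisc, max_eq_left hz]; simp

theorem rdisc_le (z : ℂ) : ‖rdisc z‖ ≤ 1 := by
  have h1 : (0 : ℝ) < max 1 ‖z‖ := lt_of_lt_of_le one_pos (le_max_left _ _)
  rw [rdisc, norm_mul, norm_inv, Complex.norm_real, Real.norm_of_nonneg h1.le,
    mul_inv_le_iff₀ h1, one_mul]
  exact le_max_right _ _

/-- The law of the vector of characters. -/
theorem law_chi (hχ : IsChi χ) (hU : IsUn U) {v v' : Z → F} (hv : Measurable v)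
    (hv' : Measurable v') {c : J → ℂ} (hc : ∀ j, ‖c j‖ ≤ 1)
    (h : ∀ j, U * E.bc (fun z => χ j (v z)) = E.bc (fun z => c j * χ j (v' z)) * U) :
    Law E U (fun z j => χ j (v z)) (fun z j => c j * χ j (v' z)) := by
  have hm : Measurable fun z j => χ j (v z) := measurable_pi_lambda _ fun j => (hχ.ms j).comp hv
  have hm' : Measurable fun z j => c j * χ j (v' z) :=
    measurable_pi_lambda _ fun j => ((hχ.ms j).comp hv').const_mul _
  have hle' : ∀ j z, ‖c j * χ j (v' z)‖ ≤ 1 := fun j z => by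
    rw [norm_mul]
    exact mul_le_one₀ (hc j) (norm_nonneg _) (hχ.le j _)
  refine law_sep hU hm hm' fun x y hxy => ?_
  obtain ⟨j, hj⟩ := Function.ne_iff.1 hxy
  -- functions vanishing on the disc
  have key : ∀ a b : ℂ, a ≠ b → 1 < ‖a‖ → ∃ g : ℂ →ᵇ ℂ, (∀ s, ‖s‖ ≤ 1 → g s = 0) ∧ g a ≠ g b := by
    intro a b hab ha
    refine ⟨BoundedContinuousFunction.ofNormedAddCommGroup
      (fun s : ℂ => ((min 1 (max 0 (‖s‖ - 1)) * min 1 ‖s - b‖ : ℝ) : ℂ)) (by fun_prop) 1
      (fun s => ?_), fun s hs => ?_, ?_⟩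
    · rw [Complex.norm_real, Real.norm_of_nonneg (by positivity)]
      exact mul_le_one₀ (min_le_left _ _) (by positivity) (min_le_left _ _)
    · change ((min 1 (max 0 (‖s‖ - 1)) * min 1 ‖s - b‖ : ℝ) : ℂ) = 0
      rw [max_eq_left (by linarith), min_eq_right zero_le_one, zero_mul, Complex.ofReal_zero]
    · change ((min 1 (max 0 (‖a‖ - 1)) * min 1 ‖a - b‖ : ℝ) : ℂ) ≠
        ((min 1 (max 0 (‖b‖ - 1)) * min 1 ‖b - b‖ : ℝ) : ℂ)
      rw [sub_self b, norm_zero, min_eq_right zero_le_one, mul_zero, Complex.ofReal_zero]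
      have h1 : 0 < min 1 (max 0 (‖a‖ - 1)) := lt_min one_pos (lt_max_of_lt_right (by linarith))
      have h2 : 0 < min 1 ‖a - b‖ := lt_min one_pos (norm_pos_iff.2 (sub_ne_zero.2 hab))
      exact_mod_cast (mul_pos h1 h2).ne'
  have fin : ∀ g : ℂ →ᵇ ℂ, (∀ s, ‖s‖ ≤ 1 → g s = 0) → g (x j) ≠ g (y j) →
      ∃ g : (J → ℂ) →ᵇ ℂ, U * E.bc (fun z => g fun j => χ j (v z)) =
        E.bc (fun z => g fun j => c j * χ j (v' z)) * U ∧ g x ≠ g y := by
    intro g hg hne
    refine ⟨g.compContinuous ⟨fun s : J → ℂ => s j, continuous_apply j⟩, ?_, hne⟩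
    have e1 : (fun z => (g.compContinuous ⟨fun s : J → ℂ => s j, continuous_apply j⟩)
        fun j => χ j (v z)) = fun _ => (0 : ℂ) := funext fun z => hg _ (hχ.le j _)
    have e2 : (fun z => (g.compContinuous ⟨fun s : J → ℂ => s j, continuous_apply j⟩)
        fun j => c j * χ j (v' z)) = fun _ => (0 : ℂ) := funext fun z => hg _ (hle' j z)
    rw [e1, e2, E.bc_const, zero_smul, mul_zero, zero_mul]
  by_cases hx : 1 < ‖x j‖
  · obtain ⟨g, h1, h2⟩ := key _ _ hj hx
    exact fin g h1 h2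
  · by_cases hy : 1 < ‖y j‖
    · obtain ⟨g, h1, h2⟩ := key _ _ hj.symm hy
      exact fin g h1 h2.symm
    · refine ⟨BoundedContinuousFunction.ofNormedAddCommGroup (fun s : J → ℂ => rdisc (s j))
        (rdisc_cont.comp (continuous_apply j)) 1 (fun s => rdisc_le _), ?_, ?_⟩
      · change U * E.bc (fun z => rdisc (χ j (v z))) = E.bc (fun z => rdisc (c j * χ j (v' z))) * U
        have e1 : (fun z => rdisc (χ j (v z))) = fun z => χ j (v z) :=
          funext fun z => rdisc_eq (hχ.le j _)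
        have e2 : (fun z => rdisc (c j * χ j (v' z))) = fun z => c j * χ j (v' z) :=
          funext fun z => rdisc_eq (hle' j z)
        rw [e1, e2, h j]
      · change rdisc (x j) ≠ rdisc (y j)
        rw [rdisc_eq (not_lt.1 hx), rdisc_eq (not_lt.1 hy)]
        exact hj

/-- characters determine the law -/
theorem law_chi' (hχ : IsChi χ) (hU : IsUn U) {v v' : Z → F} (hv : Measurable v)
    (hv' : Measurable v')
    (h : ∀ j, U * E.bc (fun z => χ j (v z)) = E.bc (fun z => χ j (v' z)) * U) :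
    Law E U v v' := by
  have h1 := law_chi hχ hU hv hv' (c := fun _ => 1) (fun j => by rw [norm_one]) (fun j => by
    simp only [one_mul]; exact h j)
  intro B hB
  have h2 := h1 _ (hχ.emb.measurableSet_image.2 hB)
  have e1 : (fun z j => χ j (v z)) ⁻¹' ((fun (x : F) (j : J) => χ j x) '' B) = v ⁻¹' B := by
    have : (fun z j => χ j (v z)) = (fun (x : F) (j : J) => χ j x) ∘ v := rfl
    rw [this, Set.preimage_comp, Set.preimage_image_eq _ hχ.emb.injective]
  have e2 : (fun z (j : J) => (1 : ℂ) * χ j (v' z)) ⁻¹' ((fun (x : F) (j : J) => χ j x) '' B) =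
      v' ⁻¹' B := by
    have : (fun z (j : J) => (1 : ℂ) * χ j (v' z)) = (fun (x : F) (j : J) => χ j x) ∘ v' := by
      funext z j
      rw [one_mul]; rfl
    rw [this, Set.preimage_comp, Set.preimage_image_eq _ hχ.emb.injective]
  rw [e1, e2] at h2
  exact h2

/-- **The constant `κ`** (no duality theorem). -/
theorem law_kappa [Nontrivial K] (hχ : IsChi χ) (hU : IsUn U) {v : Z → F} (hv : Measurable v)
    (h0 : E.p {z | v z = 0} = 0) {c : J → ℂ} (hc : ∀ j, ‖c j‖ = 1)
    (h : ∀ j, U * E.bc (fun z => χ j (v z)) = c j • (E.bc (fun z => χ j (v z)) * U)) :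
    ∃ κ : F, κ ≠ 0 ∧ (∀ j, χ j κ = c j) ∧ Law E U v (fun z => κ * v z) := by
  have hBM : ∀ j, BM (fun z => χ j (v z)) := fun j => (hχ.bm j).comp hv
  have h1 := law_chi hχ hU hv hv (c := c) (fun j => (hc j).le) (fun j => by
    rw [h j, E.bc_smul _ (hBM j), smul_mul_assoc])
  have hR : MeasurableSet (Set.range fun (x : F) (j : J) => χ j x) := hχ.emb.measurableSet_range
  have hm' : Measurable fun z j => c j * χ j (v z) :=
    measurable_pi_lambda _ fun j => ((hχ.ms j).comp hv).const_mul _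
  have h2 := h1 _ hR
  have e1 : (fun z j => χ j (v z)) ⁻¹' (Set.range fun (x : F) (j : J) => χ j x) = Set.univ :=
    Set.eq_univ_of_forall fun z => ⟨v z, rfl⟩
  rw [e1, E.univ, mul_one] at h2
  have h3 : E.p ((fun z j => c j * χ j (v z)) ⁻¹' (Set.range fun (x : F) (j : J) => χ j x)) = 1 := by
    have h4 := congrArg (fun T => T * adjoint U) h2
    simp only [mul_assoc, hU.r, mul_one] at h4
    exact h4.symm
  have hm0 : MeasurableSet {z | v z = 0} := hv (measurableSet_singleton 0)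
  have h4 : E.p ((fun z j => c j * χ j (v z)) ⁻¹' (Set.range fun (x : F) (j : J) => χ j x) ∩
      {z | v z = 0}ᶜ) = 1 := by
    rw [← E.mul (hm' hR) hm0.compl, h3, E.p_compl hm0, h0, sub_zero, mul_one]
  obtain ⟨z₀, ⟨s, hs⟩, hz₀⟩ := E.nonempty_of_ne (A := (fun z j => c j * χ j (v z)) ⁻¹'
    (Set.range fun (x : F) (j : J) => χ j x) ∩ {z | v z = 0}ᶜ) (by
      rw [h4]; exact one_ne_zero)
  have hz₀' : v z₀ ≠ 0 := hz₀
  have hs' : ∀ j, χ j s = c j * χ j (v z₀) := fun j => congrFun hs j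
  have hsne : s ≠ 0 := by
    intro h5
    obtain ⟨j⟩ := hχ.ne
    have h6 := hs' j
    rw [h5, hχ.zero] at h6
    have h7 : ‖c j * χ j (v z₀)‖ = 1 := by rw [norm_mul, hc, hχ.nrm j _ hz₀', one_mul]
    rw [← h6, norm_zero] at h7
    exact zero_ne_one h7
  have hκ : ∀ j, χ j (s * (v z₀)⁻¹) = c j := by
    intro j
    have h5 : χ j (s * (v z₀)⁻¹) * χ j (v z₀) = c j * χ j (v z₀) := by
      rw [← hχ.mul, inv_mul_cancel_right₀ hz₀', hs']
    have h6 : χ j (v z₀) ≠ 0 := by
      intro h7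
      have := hχ.nrm j _ hz₀'
      rw [h7, norm_zero] at this
      exact zero_ne_one this
    exact mul_right_cancel₀ h6 h5
  refine ⟨s * (v z₀)⁻¹, mul_ne_zero hsne (inv_ne_zero hz₀'), hκ, ?_⟩
  refine law_chi' hχ hU hv (hv.const_mul _) fun j => ?_
  rw [h j, ← smul_mul_assoc, ← E.bc_smul _ (hBM j)]
  congr 2
  funext z
  rw [hχ.mul, hκ]

end mul

end Vale.Agent.P092.H767
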