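import Vale.Agent.P092.H466.Pvm2

/-!
P092 (helper767), Team W: projection valued measures on measurable spaces, their bounded Borel
calculus, and the uniqueness theorem by a separating family of bounded continuous functions.
-/

set_option linter.all false

open MeasureTheory Topology Filter Set ContinuousLinearMap
open scoped InnerProductSpace ENNReal ComplexConjugate BoundedContinuousFunction

namespace Vale.Agent.P092.H767

open Vale.Agent.P092.H466 (ext_quad WLim exists_wlim norm_le_of_quad polar)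

/-- A projection valued measure. -/
structure PV (Z : Type*) [MeasurableSpace Z] (K : Type*) [NormedAddCommGroup K]
    [InnerProductSpace ℂ K] where
  p : Set Z → (K →L[ℂ] K)
  m : K → Measure Z
  fin : ∀ ξ, IsFiniteMeasure (m ξ)
  inn : ∀ {A : Set Z}, MeasurableSet A → ∀ ξ, ⟪ξ, p A ξ⟫_ℂ = ((m ξ).real A : ℂ)
  univ : p Set.univ = 1
  mul : ∀ {A B : Set Z}, MeasurableSet A → MeasurableSet B → p A * p B = p (A ∩ B)

/-- bounded measurable functions -/
def BM {Z : Type*} [MeasurableSpace Z] (f : Z → ℂ) : Prop :=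
  Measurable f ∧ ∃ C : ℝ, ∀ z, ‖f z‖ ≤ C

section bm

variable {Z : Type*} [MeasurableSpace Z] {f g : Z → ℂ}

theorem BM.add (hf : BM f) (hg : BM g) : BM (fun z => f z + g z) := by
  obtain ⟨h1, C, hC⟩ := hf
  obtain ⟨h2, D, hD⟩ := hg
  exact ⟨h1.add h2, C + D, fun z => (norm_add_le _ _).trans (add_le_add (hC z) (hD z))⟩

theorem BM.smul (c : ℂ) (hf : BM f) : BM (fun z => c * f z) := by
  obtain ⟨h1, C, hC⟩ := hf
  refine ⟨h1.const_mul c, ‖c‖ * C, fun z => ?_⟩
  rw [norm_mul]
  exact mul_le_mul_of_nonneg_left (hC z) (norm_nonneg _)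

theorem BM.mul (hf : BM f) (hg : BM g) : BM (fun z => f z * g z) := by
  obtain ⟨h1, C, hC⟩ := hf
  obtain ⟨h2, D, hD⟩ := hg
  refine ⟨h1.mul h2, C * D, fun z => ?_⟩
  rw [norm_mul]
  exact mul_le_mul (hC z) (hD z) (norm_nonneg _) ((norm_nonneg _).trans (hC z))

theorem BM.conj (hf : BM f) : BM (fun z => conj (f z)) := by
  obtain ⟨h1, C, hC⟩ := hf
  refine ⟨Complex.continuous_conj.measurable.comp h1, C, fun z => ?_⟩
  rw [RCLike.norm_conj]
  exact hC z

theorem BM.const (c : ℂ) : BM (fun _ : Z => c) := ⟨measurable_const, ‖c‖, fun _ => le_rfl⟩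

theorem BM.indicator {A : Set Z} (hA : MeasurableSet A) (hf : BM f) : BM (A.indicator f) := by
  obtain ⟨h1, C, hC⟩ := hf
  refine ⟨h1.indicator hA, C, fun z => ?_⟩
  by_cases hz : z ∈ A
  · rw [Set.indicator_of_mem hz]; exact hC z
  · rw [Set.indicator_of_notMem hz, norm_zero]
    exact (norm_nonneg _).trans (hC z)

theorem BM.ind1 {A : Set Z} (hA : MeasurableSet A) : BM (A.indicator fun _ => (1 : ℂ)) :=
  (BM.const 1).indicator hA

theorem BM.comp {Y : Type*} [MeasurableSpace Y] {F : Y → ℂ} (hF : BM F) {v : Z → Y}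
    (hv : Measurable v) : BM (fun z => F (v z)) := by
  obtain ⟨h1, C, hC⟩ := hF
  exact ⟨h1.comp hv, C, fun z => hC _⟩

theorem BM.integrable (hf : BM f) (μ : Measure Z) [IsFiniteMeasure μ] : Integrable f μ := by
  obtain ⟨h1, C, hC⟩ := hf
  exact Integrable.of_bound h1.aestronglyMeasurable C (Eventually.of_forall hC)

/-- induction for bounded measurable functions -/
theorem BM.rec' {P : (Z → ℂ) → Prop} (h1 : ∀ A, MeasurableSet A → P (A.indicator fun _ => (1 : ℂ)))
    (h2 : ∀ f g, BM f → BM g → P f → P g → P fun z => f z + g z)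
    (h3 : ∀ (c : ℂ) f, BM f → P f → P fun z => c * f z)
    (h4 : ∀ (s : ℕ → Z → ℂ) (g : Z → ℂ) (C : ℝ), (∀ n, Measurable (s n)) → (∀ n z, ‖s n z‖ ≤ C) →
      Measurable g → (∀ z, ‖g z‖ ≤ C) → (∀ z, Tendsto (fun n => s n z) atTop (𝓝 (g z))) →
      (∀ n, P (s n)) → P g)
    (hf : BM f) : P f := by
  classical
  have hsb : ∀ s : SimpleFunc Z ℂ, BM s := by
    intro s
    obtain ⟨C, hC⟩ := s.exists_forall_norm_le
    exact ⟨s.measurable, C, hC⟩
  have hs : ∀ s : SimpleFunc Z ℂ, P s := by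
    intro s
    refine SimpleFunc.induction (motive := fun s : SimpleFunc Z ℂ => P s) ?_ ?_ s
    · intro c A hA
      have e : (⇑(SimpleFunc.piecewise A hA (SimpleFunc.const Z c) (SimpleFunc.const Z 0)) :
          Z → ℂ) = fun z => c * (A.indicator (fun _ => (1 : ℂ)) z) := by
        funext z
        rw [SimpleFunc.coe_piecewise]
        by_cases hz : z ∈ A
        · rw [Set.piecewise_eq_of_mem _ _ _ hz, Set.indicator_of_mem hz, mul_one]; rfl
        · rw [Set.piecewise_eq_of_notMem _ _ _ hz, Set.indicator_of_notMem hz, mul_zero]; rfl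
      rw [e]
      exact h3 c _ (BM.ind1 hA) (h1 A hA)
    · intro s t _ hs ht
      exact h2 s t (hsb s) (hsb t) hs ht
  obtain ⟨hm, C, hC⟩ := hf
  have hC0 : 0 ≤ max C 0 := le_max_right _ _
  have hC' : ∀ z, ‖f z‖ ≤ max C 0 := fun z => (hC z).trans (le_max_left _ _)
  exact h4 (fun n => hm.stronglyMeasurable.approxBounded (max C 0) n) f (max C 0)
    (fun n => (hm.stronglyMeasurable.approxBounded (max C 0) n).measurable)
    (fun n z => hm.stronglyMeasurable.norm_approxBounded_le hC0 n z) hm hC'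
    (fun z => hm.stronglyMeasurable.tendsto_approxBounded_of_norm_le (hC' z)) fun n => hs _

end bm

namespace PV

variable {Z : Type*} [MeasurableSpace Z] {K : Type*} [NormedAddCommGroup K]
  [InnerProductSpace ℂ K] (E : PV Z K)

instance (ξ : K) : IsFiniteMeasure (E.m ξ) := E.fin ξ

theorem m_univ (ξ : K) : (E.m ξ).real Set.univ = ‖ξ‖ ^ 2 := by
  have h := E.inn MeasurableSet.univ ξ
  rw [E.univ, one_apply_eq_self, inner_self_eq_norm_sq_to_K] at h
  refine Complex.ofReal_injective ?_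
  rw [← h]
  push_cast
  rfl

theorem norm_int_le {f : Z → ℂ} {C : ℝ} (hC : ∀ z, ‖f z‖ ≤ C) (ξ : K) :
    ‖∫ z, f z ∂(E.m ξ)‖ ≤ C * ‖ξ‖ ^ 2 := by
  have h1 := norm_integral_le_of_norm_le_const (μ := E.m ξ) (f := f) (C := C)
    (Eventually.of_forall hC)
  rwa [m_univ] at h1

variable [CompleteSpace K]

theorem exists_bc {f : Z → ℂ} (hf : BM f) :
    ∃ S : K →L[ℂ] K, ∀ ξ, ⟪ξ, S ξ⟫_ℂ = ∫ z, f z ∂(E.m ξ) := by
  refine BM.rec' (P := fun f => ∃ S : K →L[ℂ] K, ∀ ξ, ⟪ξ, S ξ⟫_ℂ = ∫ z, f z ∂(E.m ξ))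
    ?_ ?_ ?_ ?_ hf
  · intro A hA
    refine ⟨E.p A, fun ξ => ?_⟩
    rw [E.inn hA, integral_indicator hA]
    simp
  · rintro f g hf hg ⟨S, hS⟩ ⟨T, hT⟩
    refine ⟨S + T, fun ξ => ?_⟩
    rw [ContinuousLinearMap.add_apply, inner_add_right, hS, hT,
      integral_add (hf.integrable _) (hg.integrable _)]
  · rintro c f hf ⟨S, hS⟩
    refine ⟨c • S, fun ξ => ?_⟩
    rw [ContinuousLinearMap.smul_apply, inner_smul_right, hS, integral_const_mul]
  · intro s g C hs hC hg hgC hlim h
    choose S hS using h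
    have hC0 : ∀ ξ : K, 0 ≤ C ∨ ‖ξ‖ = 0 := by
      intro ξ
      by_cases hne : Nonempty Z
      · obtain ⟨z⟩ := hne
        exact Or.inl ((norm_nonneg _).trans (hC 0 z))
      · right
        have h0 : (E.m ξ).real Set.univ = 0 := by
          haveI := not_nonempty_iff.1 hne
          rw [Set.univ_eq_empty_iff.2 this]; simp
        rw [E.m_univ] at h0
        exact (pow_eq_zero_iff two_ne_zero).1 h0
    refine exists_wlim (T := S) (C := 2 * (|C| + 1)) (fun n => ?_) fun ξ => ?_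
    · have h1 : ‖((|C| + 1 : ℝ) : ℂ)⁻¹ • S n‖ ≤ 2 := by
        refine norm_le_of_quad fun ξ => ?_
        rw [ContinuousLinearMap.smul_apply, inner_smul_right, hS, norm_mul, norm_inv,
          Complex.norm_real, Real.norm_of_nonneg (by positivity)]
        have h2 := E.norm_int_le (hC n) ξ
        have h3 : C * ‖ξ‖ ^ 2 ≤ (|C| + 1) * ‖ξ‖ ^ 2 :=
          mul_le_mul_of_nonneg_right ((le_abs_self C).trans (by linarith)) (by positivity)
        rw [inv_mul_le_iff₀ (by positivity)]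
        linarith
      rw [norm_smul, norm_inv, Complex.norm_real, Real.norm_of_nonneg (by positivity),
        inv_mul_le_iff₀ (by positivity)] at h1
      linarith
    · simp only [hS]
      exact tendsto_integral_of_dominated_convergence (fun _ => C)
        (fun n => (hs n).aestronglyMeasurable) (integrable_const C)
        (fun n => Eventually.of_forall (hC n)) (Eventually.of_forall hlim)

open Classical in
/-- the bounded Borel calculus -/
noncomputable def bc (f : Z → ℂ) : K →L[ℂ] K :=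
  if hf : BM f then (E.exists_bc hf).choose else 0

variable {f g : Z → ℂ}

theorem inn_bc (hf : BM f) (ξ : K) : ⟪ξ, E.bc f ξ⟫_ℂ = ∫ z, f z ∂(E.m ξ) := by
  rw [bc, dif_pos hf]
  exact (E.exists_bc hf).choose_spec ξ

theorem bc_ind {A : Set Z} (hA : MeasurableSet A) :
    E.bc (A.indicator fun _ => (1 : ℂ)) = E.p A :=
  ext_quad fun ξ => by
    rw [E.inn_bc (BM.ind1 hA), E.inn hA, integral_indicator hA]
    simp

theorem bc_const (c : ℂ) : E.bc (fun _ => c) = c • 1 :=
  ext_quad fun ξ => by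
    rw [E.inn_bc (BM.const c), ContinuousLinearMap.smul_apply, inner_smul_right,
      one_apply_eq_self, inner_self_eq_norm_sq_to_K, integral_const, E.m_univ]
    simp [mul_comm]

theorem bc_one : E.bc (fun _ => (1 : ℂ)) = 1 := by rw [bc_const, one_smul]

theorem bc_add (hf : BM f) (hg : BM g) : E.bc (fun z => f z + g z) = E.bc f + E.bc g :=
  ext_quad fun ξ => by
    rw [E.inn_bc (hf.add hg), ContinuousLinearMap.add_apply, inner_add_right, E.inn_bc hf,
      E.inn_bc hg, integral_add (hf.integrable _) (hg.integrable _)]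

theorem bc_smul (c : ℂ) (hf : BM f) : E.bc (fun z => c * f z) = c • E.bc f :=
  ext_quad fun ξ => by
    rw [E.inn_bc (hf.smul c), ContinuousLinearMap.smul_apply, inner_smul_right, E.inn_bc hf,
      integral_const_mul]

theorem bc_conj (hf : BM f) : E.bc (fun z => conj (f z)) = adjoint (E.bc f) :=
  ext_quad fun ξ => by
    rw [E.inn_bc hf.conj, integral_conj, ← E.inn_bc hf, adjoint_inner_right, inner_conj_symm]

theorem wlim_bc {s : ℕ → Z → ℂ} {C : ℝ} (hs : ∀ n, Measurable (s n))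
    (hC : ∀ n z, ‖s n z‖ ≤ C) (hg : Measurable g) (hgC : ∀ z, ‖g z‖ ≤ C)
    (hlim : ∀ z, Tendsto (fun n => s n z) atTop (𝓝 (g z))) :
    WLim (fun n => E.bc (s n)) (E.bc g) := by
  intro ξ
  have e : (fun n => ⟪ξ, E.bc (s n) ξ⟫_ℂ) = fun n => ∫ z, s n z ∂(E.m ξ) :=
    funext fun n => E.inn_bc ⟨hs n, C, hC n⟩ ξ
  rw [e, E.inn_bc ⟨hg, C, hgC⟩]
  exact tendsto_integral_of_dominated_convergence (fun _ => C)
    (fun n => (hs n).aestronglyMeasurable) (integrable_const C)
    (fun n => Eventually.of_forall (hC n)) (Eventually.of_forall hlim)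

theorem p_mul_bc {A : Set Z} (hA : MeasurableSet A) (hg : BM g) :
    E.p A * E.bc g = E.bc (A.indicator g) := by
  refine BM.rec' (P := fun g => E.p A * E.bc g = E.bc (A.indicator g)) ?_ ?_ ?_ ?_ hg
  · intro B hB
    rw [E.bc_ind hB, E.mul hA hB, Set.indicator_indicator, E.bc_ind (hA.inter hB)]
  · intro f g hf hg h1 h2
    rw [E.bc_add hf hg, mul_add, h1, h2, ← E.bc_add (hf.indicator hA) (hg.indicator hA)]
    congr 1
    funext z
    by_cases hz : z ∈ A
    · simp only [Set.indicator_of_mem hz]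
    · simp only [Set.indicator_of_notMem hz, add_zero]
  · intro c f hf h1
    rw [E.bc_smul c hf, mul_smul_comm, h1, ← E.bc_smul c (hf.indicator hA)]
    congr 1
    funext z
    by_cases hz : z ∈ A
    · simp only [Set.indicator_of_mem hz]
    · simp only [Set.indicator_of_notMem hz, mul_zero]
  · intro s g C hs hC hg hgC hlim h
    have h1 := (E.wlim_bc hs hC hg hgC hlim).mul_left (E.p A)
    have hb : ∀ (f : Z → ℂ), (∀ z, ‖f z‖ ≤ C) → ∀ z, ‖A.indicator f z‖ ≤ C := by
      intro f hf z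
      by_cases hz : z ∈ A
      · rw [Set.indicator_of_mem hz]; exact hf z
      · rw [Set.indicator_of_notMem hz, norm_zero]; exact (norm_nonneg _).trans (hf z)
    have h2 : WLim (fun n => E.bc (A.indicator (s n))) (E.bc (A.indicator g)) := by
      refine E.wlim_bc (C := C) (fun n => (hs n).indicator hA) (fun n => hb _ (hC n))
        (hg.indicator hA) (hb _ hgC) fun z => ?_
      by_cases hz : z ∈ A
      · simp only [Set.indicator_of_mem hz]; exact hlim z
      · simp only [Set.indicator_of_notMem hz]; exact tendsto_const_nhds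
    have h3 : (fun n => E.p A * E.bc (s n)) = fun n => E.bc (A.indicator (s n)) := funext h
    rw [h3] at h1
    exact h1.unique h2

theorem bc_mul (hf : BM f) (hg : BM g) : E.bc f * E.bc g = E.bc (fun z => f z * g z) := by
  refine BM.rec' (P := fun f => E.bc f * E.bc g = E.bc (fun z => f z * g z)) ?_ ?_ ?_ ?_ hf
  · intro B hB
    rw [E.bc_ind hB, E.p_mul_bc hB hg]
    congr 1
    funext z
    by_cases hz : z ∈ B
    · simp only [Set.indicator_of_mem hz, one_mul]
    · simp only [Set.indicator_of_notMem hz, zero_mul]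
  · intro f₁ f₂ h1 h2 h3 h4
    rw [E.bc_add h1 h2, add_mul, h3, h4, ← E.bc_add (h1.mul hg) (h2.mul hg)]
    congr 1
    funext z
    rw [add_mul]
  · intro c f₁ h1 h3
    rw [E.bc_smul c h1, smul_mul_assoc, h3, ← E.bc_smul c (h1.mul hg)]
    congr 1
    funext z
    rw [mul_assoc]
  · intro s g' C hs hC hg' hgC hlim h
    have h1 := (E.wlim_bc hs hC hg' hgC hlim).mul_right (E.bc g)
    obtain ⟨hgm, D, hD⟩ := hg
    have hb : ∀ (f : Z → ℂ), (∀ z, ‖f z‖ ≤ C) → ∀ z, ‖f z * g z‖ ≤ C * D := by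
      intro f hf z
      rw [norm_mul]
      exact mul_le_mul (hf z) (hD z) (norm_nonneg _) ((norm_nonneg _).trans (hf z))
    have h2 : WLim (fun n => E.bc fun z => s n z * g z) (E.bc fun z => g' z * g z) :=
      E.wlim_bc (C := C * D) (fun n => (hs n).mul hgm) (fun n => hb _ (hC n))
        (hg'.mul hgm) (hb _ hgC) fun z => (hlim z).mul_const _
    have h3 : (fun n => E.bc (s n) * E.bc g) = fun n => E.bc fun z => s n z * g z := funext h
    rw [h3] at h1
    exact h1.unique h2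

theorem bc_comm (hf : BM f) (hg : BM g) : E.bc f * E.bc g = E.bc g * E.bc f := by
  rw [E.bc_mul hf hg, E.bc_mul hg hf]
  congr 1
  funext z
  rw [mul_comm]

/-- intertwining -/
theorem bc_int (E' : PV Z K) {U : K →L[ℂ] K}
    (h : ∀ A, MeasurableSet A → U * E.p A = E'.p A * U) (hf : BM f) :
    U * E.bc f = E'.bc f * U := by
  refine BM.rec' (P := fun f => U * E.bc f = E'.bc f * U) ?_ ?_ ?_ ?_ hf
  · intro B hB
    rw [E.bc_ind hB, E'.bc_ind hB, h B hB]
  · intro f₁ f₂ h1 h2 h3 h4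
    rw [E.bc_add h1 h2, E'.bc_add h1 h2, mul_add, h3, h4, add_mul]
  · intro c f₁ h1 h3
    rw [E.bc_smul c h1, E'.bc_smul c h1, mul_smul_comm, h3, smul_mul_assoc]
  · intro s g' C hs hC hg' hgC hlim h'
    have h1 := (E.wlim_bc hs hC hg' hgC hlim).mul_left U
    have h2 := (E'.wlim_bc hs hC hg' hgC hlim).mul_right U
    have h3 : (fun n => U * E.bc (s n)) = fun n => E'.bc (s n) * U := funext h'
    rw [h3] at h1
    exact h1.unique h2

theorem bc_congr (hf : BM f) (hg : BM g) (h : E.p {z | f z ≠ g z} = 0) : E.bc f = E.bc g := by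
  have hm : MeasurableSet {z | f z ≠ g z} := (measurableSet_eq_fun hf.1 hg.1).compl
  refine ext_quad fun ξ => ?_
  rw [E.inn_bc hf, E.inn_bc hg]
  refine integral_congr_ae ?_
  have h1 := E.inn hm ξ
  rw [h] at h1
  have h2 : (E.m ξ).real {z | f z ≠ g z} = 0 := by
    have h3 : ((E.m ξ).real {z | f z ≠ g z} : ℂ) = 0 := by
      rw [← h1]; simp
    exact_mod_cast h3
  rw [measureReal_eq_zero_iff] at h2
  exact h2

theorem norm_bc_sq (hf : BM f) (ξ : K) :
    ((‖E.bc f ξ‖ ^ 2 : ℝ) : ℂ) = ∫ z, (‖f z‖ : ℂ) ^ 2 ∂(E.m ξ) := by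
  have h1 : ⟪E.bc f ξ, E.bc f ξ⟫_ℂ = ⟪ξ, (E.bc (fun z => conj (f z)) * E.bc f) ξ⟫_ℂ := by
    rw [E.bc_conj hf]
    change _ = ⟪ξ, adjoint (E.bc f) (E.bc f ξ)⟫_ℂ
    rw [adjoint_inner_right]
  rw [inner_self_eq_norm_sq_to_K, E.bc_mul hf.conj hf, E.inn_bc (hf.conj.mul hf)] at h1
  push_cast
  refine h1.trans ?_
  refine integral_congr_ae (Eventually.of_forall fun z => ?_)
  change conj (f z) * f z = _
  rw [RCLike.conj_mul]
  rfl

/-- bounded pointwise convergence implies strong convergence -/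
theorem tendsto_bc {s : ℕ → Z → ℂ} {C : ℝ} (hs : ∀ n, Measurable (s n))
    (hC : ∀ n z, ‖s n z‖ ≤ C) (hg : Measurable g) (hgC : ∀ z, ‖g z‖ ≤ C)
    (hlim : ∀ z, Tendsto (fun n => s n z) atTop (𝓝 (g z))) (ξ : K) :
    Tendsto (fun n => E.bc (s n) ξ) atTop (𝓝 (E.bc g ξ)) := by
  rw [tendsto_iff_norm_sub_tendsto_zero]
  have hb : ∀ n z, ‖s n z + (-1) * g z‖ ≤ C + C := fun n z =>
    (norm_add_le _ _).trans (add_le_add (hC n z) (by
      rw [norm_mul, norm_neg, norm_one, one_mul]; exact hgC z))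
  have hBM : ∀ n, BM (fun z => s n z + (-1) * g z) := fun n =>
    ⟨(hs n).add (hg.const_mul _), _, hb n⟩
  have h1 : ∀ n, E.bc (s n) ξ - E.bc g ξ = E.bc (fun z => s n z + (-1) * g z) ξ := by
    intro n
    have hBg : BM g := ⟨hg, C, hgC⟩
    rw [E.bc_add ⟨hs n, C, hC n⟩ (hBg.smul (-1)), E.bc_smul (-1) hBg]
    rw [ContinuousLinearMap.add_apply, ContinuousLinearMap.smul_apply, neg_one_smul,
      sub_eq_add_neg]
  have h2 : Tendsto (fun n => ∫ z, (‖s n z + (-1) * g z‖ : ℂ) ^ 2 ∂(E.m ξ)) atTop (𝓝 0) := by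
    have h3 : Tendsto (fun n => ∫ z, (‖s n z + (-1) * g z‖ : ℂ) ^ 2 ∂(E.m ξ)) atTop
        (𝓝 (∫ z, (0 : ℂ) ∂(E.m ξ))) := by
      refine tendsto_integral_of_dominated_convergence (fun _ => (C + C) ^ 2) (fun n => ?_)
        (integrable_const _) (fun n => Eventually.of_forall fun z => ?_)
        (Eventually.of_forall fun z => ?_)
      · exact (((Complex.continuous_ofReal.measurable.comp (hBM n).1.norm)).pow_const
          2).aestronglyMeasurable
      · rw [norm_pow, Complex.norm_real, Real.norm_of_nonneg (norm_nonneg _)]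
        exact pow_le_pow_left₀ (norm_nonneg _) (hb n z) 2
      · have h4 : Tendsto (fun n => s n z + (-1) * g z) atTop (𝓝 0) := by
          have h7 := (hlim z).add_const ((-1) * g z)
          have h8 : g z + (-1) * g z = 0 := by ring
          rwa [h8] at h7
        have h5 := h4.norm
        rw [norm_zero] at h5
        have h6 := ((Complex.continuous_ofReal.tendsto _).comp h5).pow 2
        simpa using h6
    rwa [integral_zero] at h3
  have h3 : Tendsto (fun n => ‖E.bc (s n) ξ - E.bc g ξ‖ ^ 2) atTop (𝓝 0) := by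
    have h4 : Tendsto (fun n => ((‖E.bc (s n) ξ - E.bc g ξ‖ ^ 2 : ℝ) : ℂ)) atTop (𝓝 0) := by
      refine h2.congr fun n => ?_
      rw [h1, E.norm_bc_sq (hBM n)]
    have h5 := (Complex.continuous_re.tendsto _).comp h4
    rw [Complex.zero_re] at h5
    exact h5.congr fun n => Complex.ofReal_re _
  have h4 := (Real.continuous_sqrt.tendsto _).comp h3
  rw [Real.sqrt_zero] at h4
  refine h4.congr fun n => ?_
  exact Real.sqrt_sq (norm_nonneg _)

/-! ### operations -/

/-- push forward -/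
noncomputable def map {Y : Type*} [MeasurableSpace Y] (v : Z → Y) (hv : Measurable v) : PV Y K where
  p A := E.p (v ⁻¹' A)
  m ξ := (E.m ξ).map v
  fin ξ := by infer_instance
  inn hA ξ := by rw [E.inn (hv hA), map_measureReal_apply hv hA]
  univ := by rw [Set.preimage_univ, E.univ]
  mul hA hB := by rw [E.mul (hv hA) (hv hB), Set.preimage_inter]

theorem map_p {Y : Type*} [MeasurableSpace Y] {v : Z → Y} (hv : Measurable v) (A : Set Y) :
    (E.map v hv).p A = E.p (v ⁻¹' A) := rfl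

theorem map_bc {Y : Type*} [MeasurableSpace Y] {v : Z → Y} (hv : Measurable v) {F : Y → ℂ}
    (hF : BM F) : (E.map v hv).bc F = E.bc (fun z => F (v z)) :=
  ext_quad fun ξ => by
    rw [inn_bc _ hF, inn_bc _ (hF.comp hv)]
    exact integral_map hv.aemeasurable hF.1.aestronglyMeasurable

/-- conjugation by a unitary -/
noncomputable def cj (U U' : K →L[ℂ] K) (h1 : U * U' = 1) (h2 : U' * U = 1)
    (h3 : adjoint U = U') : PV Z K where
  p A := U * E.p A * U'
  m ξ := E.m (U' ξ)
  fin ξ := by infer_instance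
  inn hA ξ := by
    change ⟪ξ, U (E.p _ (U' ξ))⟫_ℂ = _
    rw [← adjoint_inner_left, h3, E.inn hA]
  univ := by rw [E.univ, mul_one, h1]
  mul {A B} hA hB := by
    calc U * E.p A * U' * (U * E.p B * U') = U * E.p A * (U' * U) * E.p B * U' := by
          simp only [mul_assoc]
      _ = U * (E.p A * E.p B) * U' := by rw [h2, mul_one]; simp only [mul_assoc]
      _ = _ := by rw [E.mul hA hB]

theorem cj_bc {U U' : K →L[ℂ] K} (h1 : U * U' = 1) (h2 : U' * U = 1) (h3 : adjoint U = U')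
    (hf : BM f) : (E.cj U U' h1 h2 h3).bc f = U * E.bc f * U' := by
  have h4 : U * E.bc f = (E.cj U U' h1 h2 h3).bc f * U := by
    refine E.bc_int _ (fun A hA => ?_) hf
    change U * E.p A = U * E.p A * U' * U
    rw [mul_assoc, h2, mul_one]
  rw [h4, mul_assoc, h1, mul_one]

/-- equality of the projections implies equality of the calculi -/
theorem bc_eq {E' : PV Z K} (h : ∀ A, MeasurableSet A → E.p A = E'.p A) (hf : BM f) :
    E.bc f = E'.bc f := by
  have h1 := E.bc_int E' (U := 1) (fun A hA => by rw [one_mul, mul_one, h A hA]) hf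
  rwa [one_mul, mul_one] at h1

/-- **Uniqueness.** -/
theorem ext_sep {Y : Type*} [MeasurableSpace Y] [TopologicalSpace Y] [PolishSpace Y]
    [BorelSpace Y] {E₁ E₂ : PV Y K}
    (h : ∀ x y : Y, x ≠ y → ∃ g : Y →ᵇ ℂ, E₁.bc g = E₂.bc g ∧ g x ≠ g y) :
    ∀ A, MeasurableSet A → E₁.p A = E₂.p A := by
  have hB : ∀ g : Y →ᵇ ℂ, BM (g : Y → ℂ) := fun g =>
    ⟨g.continuous.measurable, ‖g‖, g.norm_coe_le_norm⟩
  obtain ⟨S, hS⟩ : ∃ S : StarSubalgebra ℂ (Y →ᵇ ℂ), ∀ g, g ∈ S ↔ E₁.bc g = E₂.bc g := by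
    refine ⟨{ carrier := {g | E₁.bc g = E₂.bc g}
              mul_mem' := fun {a b} ha hb => ?_
              add_mem' := fun {a b} ha hb => ?_
              algebraMap_mem' := fun c => ?_
              star_mem' := fun {a} ha => ?_ }, fun g => Iff.rfl⟩
    · have ha' : E₁.bc a = E₂.bc a := ha
      have hb' : E₁.bc b = E₂.bc b := hb
      change E₁.bc (fun y => a y * b y) = E₂.bc (fun y => a y * b y)
      rw [← E₁.bc_mul (hB a) (hB b), ← E₂.bc_mul (hB a) (hB b), ha', hb']
    · have ha' : E₁.bc a = E₂.bc a := ha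
      have hb' : E₁.bc b = E₂.bc b := hb
      change E₁.bc (fun y => a y + b y) = E₂.bc (fun y => a y + b y)
      rw [E₁.bc_add (hB a) (hB b), E₂.bc_add (hB a) (hB b), ha', hb']
    · change E₁.bc (fun _ => c) = E₂.bc (fun _ => c)
      rw [E₁.bc_const, E₂.bc_const]
    · have ha' : E₁.bc a = E₂.bc a := ha
      change E₁.bc (fun y => conj (a y)) = E₂.bc (fun y => conj (a y))
      rw [E₁.bc_conj (hB a), E₂.bc_conj (hB a), ha']
  have hm : ∀ ξ, E₁.m ξ = E₂.m ξ := by
    intro ξ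
    refine ext_of_forall_mem_subalgebra_integral_eq_of_polish (𝕜 := ℂ) (A := S) ?_ ?_
    · intro x y hxy
      obtain ⟨g, hg, hne⟩ := h x y hxy
      exact ⟨g, ⟨g.toContinuousMap, ⟨g, (hS g).2 hg, rfl⟩, rfl⟩, hne⟩
    · intro g hg
      rw [← E₁.inn_bc (hB g), ← E₂.inn_bc (hB g), (hS g).1 hg]
  intro A hA
  refine ext_quad fun ξ => ?_
  rw [E₁.inn hA, E₂.inn hA, hm]

/-- The projection valued measure of a *-homomorphism. -/
noncomputable def ofHom {X : Type*} [TopologicalSpace X] [CompactSpace X]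
    [TopologicalSpace.MetrizableSpace X] [MeasurableSpace X] [BorelSpace X]
    (φ : C(X, ℂ) →⋆ₐ[ℂ] (K →L[ℂ] K)) : PV X K where
  p := H466.pv φ
  m := H466.ms φ
  fin ξ := by infer_instance
  inn hA ξ := H466.inner_pv φ hA ξ
  univ := H466.pv_univ φ
  mul hA hB := (H466.pv_inter φ hA hB).symm

theorem ofHom_bc {X : Type*} [TopologicalSpace X] [CompactSpace X]
    [TopologicalSpace.MetrizableSpace X] [MeasurableSpace X] [BorelSpace X]
    (φ : C(X, ℂ) →⋆ₐ[ℂ] (K →L[ℂ] K)) (f : C(X, ℂ)) : (ofHom φ).bc f = φ f := by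
  refine ext_quad fun ξ => ?_
  rw [inn_bc _ ⟨f.continuous.measurable, ‖f‖, f.norm_coe_le_norm⟩]
  exact H466.integral_ms φ f ξ

end PV

end Vale.Agent.P092.H767
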