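import Vale.Agent.P092.H767.WLaw
import Vale.Agent.P092.RC.Defs

/-!
P092 (helper767), Team W: THEOREM W (split residues), the gallery step.  Two families of chambers
(points of two rank one residues), given by projection valued measures `E`, `E'` with coordinates
`x, y` and `x', y'`; if the remaining chambers of the gallery commute with everything, and the tori
act by scaling, then the coordinates of `E` commute with the coordinates of `E'`.
-/

set_option linter.all false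

open MeasureTheory Topology Filter Set ContinuousLinearMap
open scoped InnerProductSpace ENNReal ComplexConjugate BoundedContinuousFunction

namespace Vale.Agent.P092.H767

/-! ### the frame -/

section frame

variable {G Γ K : Type*} [Group G] [Group Γ] [NormedAddCommGroup K]
  [InnerProductSpace ℂ K] [CompleteSpace K]

/-- `T ∈ {W, lam}'` -/
def InM (lam : Γ →* (K →L[ℂ] K)) (W : Set (K →L[ℂ] K)) (T : K →L[ℂ] K) : Prop :=
  (∀ w ∈ W, T * w = w * T) ∧ ∀ γ, T * lam γ = lam γ * T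

/-- What is used of the picture. -/
structure Fr (π : G →* (K →L[ℂ] K)) (lam : Γ →* (K →L[ℂ] K)) (W : Set (K →L[ℂ] K)) (Ω : K) :
    Prop where
  adjP : ∀ g, adjoint (π g) = π g⁻¹
  adjL : ∀ γ, adjoint (lam γ) = lam γ⁻¹
  Wadj : ∀ w ∈ W, adjoint w ∈ W
  nΩ : ‖Ω‖ = 1
  tv : ∀ Y, InM lam W Y → ∀ h, ⟪π h Ω, Y (π h Ω)⟫_ℂ = ⟪Ω, Y Ω⟫_ℂ
  sep : ∀ Y, InM lam W Y → Y Ω = 0 → Y = 0

variable {π : G →* (K →L[ℂ] K)} {lam : Γ →* (K →L[ℂ] K)} {W : Set (K →L[ℂ] K)} {Ω : K}

theorem adj_mul (A B : K →L[ℂ] K) : adjoint (A * B) = adjoint B * adjoint A := by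
  rw [← star_eq_adjoint, star_mul]; rfl

theorem InM.mul {S T : K →L[ℂ] K} (hS : InM lam W S) (hT : InM lam W T) : InM lam W (S * T) :=
  ⟨fun w hw => by rw [mul_assoc, hT.1 w hw, ← mul_assoc, hS.1 w hw, mul_assoc],
    fun γ => by rw [mul_assoc, hT.2 γ, ← mul_assoc, hS.2 γ, mul_assoc]⟩

theorem InM.sub {S T : K →L[ℂ] K} (hS : InM lam W S) (hT : InM lam W T) : InM lam W (S - T) :=
  ⟨fun w hw => by rw [sub_mul, mul_sub, hS.1 w hw, hT.1 w hw],
    fun γ => by rw [sub_mul, mul_sub, hS.2 γ, hT.2 γ]⟩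

theorem InM.one : InM lam W (1 : K →L[ℂ] K) :=
  ⟨fun w _ => by rw [one_mul, mul_one], fun γ => by rw [one_mul, mul_one]⟩

theorem InM.adj (hF : Fr π lam W Ω) {T : K →L[ℂ] K} (hT : InM lam W T) :
    InM lam W (adjoint T) := by
  refine ⟨fun w hw => ?_, fun γ => ?_⟩
  · have h1 := congrArg (fun S => adjoint S) (hT.1 _ (hF.Wadj w hw))
    simp only [adj_mul, adjoint_adjoint] at h1
    exact h1.symm
  · have h1 := congrArg (fun S => adjoint S) (hT.2 γ⁻¹)
    simp only [adj_mul, hF.adjL, inv_inv] at h1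
    exact h1.symm

theorem Fr.norm_pi (hF : Fr π lam W Ω) (g : G) (ξ : K) : ‖π g ξ‖ = ‖ξ‖ := by
  have h1 : IsUn (π g) := by
    refine ⟨?_, ?_⟩
    · rw [hF.adjP, ← map_mul, inv_mul_cancel, map_one]
    · rw [hF.adjP, ← map_mul, mul_inv_cancel, map_one]
  exact h1.norm ξ

theorem inner_adj_mul (D : K →L[ℂ] K) (v : K) :
    ⟪v, (adjoint D * D) v⟫_ℂ = ((‖D v‖ ^ 2 : ℝ) : ℂ) := by
  change ⟪v, adjoint D (D v)⟫_ℂ = _
  rw [adjoint_inner_right, inner_self_eq_norm_sq_to_K]
  push_cast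
  rfl

/-- **Contraction.** -/
theorem Fr.eq_one (hF : Fr π lam W Ω) {T : K →L[ℂ] K} (hT : InM lam W T) {b : ℕ → G}
    {S : ℕ → (K →L[ℂ] K)} (hS : ∀ n, π (b n) * T = S n * π (b n))
    (h : Tendsto (fun n => S n Ω) atTop (𝓝 Ω)) : T = 1 := by
  obtain ⟨D, hDT⟩ : ∃ D, D = T - 1 := ⟨_, rfl⟩
  have hD : InM lam W D := by rw [hDT]; exact hT.sub InM.one
  have hY : InM lam W (adjoint D * D) := (hD.adj hF).mul hD
  have e2 : ∀ n, ‖D Ω‖ = ‖S n Ω - Ω‖ := by
    intro n
    have h1 := hF.tv _ hY (b n)⁻¹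
    rw [inner_adj_mul, inner_adj_mul] at h1
    have h2 : ‖D (π (b n)⁻¹ Ω)‖ ^ 2 = ‖D Ω‖ ^ 2 := by exact_mod_cast h1
    have h3 := (pow_left_inj₀ (norm_nonneg _) (norm_nonneg _) two_ne_zero).mp h2
    rw [← h3, ← hF.norm_pi (b n)]
    congr 1
    have h4 : π (b n) * D * π (b n)⁻¹ = S n - 1 := by
      rw [hDT, mul_sub, mul_one, hS, sub_mul, mul_assoc, ← map_mul, mul_inv_cancel, map_one,
        mul_one]
    have h5 : (π (b n) * D * π (b n)⁻¹) Ω = (S n - 1) Ω := by rw [h4]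
    exact h5
  have h3 : Tendsto (fun n => ‖S n Ω - Ω‖) atTop (𝓝 0) := tendsto_iff_norm_sub_tendsto_zero.1 h
  have h4 : ‖D Ω‖ = 0 := by
    refine tendsto_nhds_unique (tendsto_const_nhds (x := ‖D Ω‖) (f := (atTop : Filter ℕ))) ?_
    refine h3.congr fun n => (e2 n).symm
  have h5 := hF.sep _ hD (norm_eq_zero.1 h4)
  rw [hDT] at h5
  exact sub_eq_zero.1 h5

/-- strong limits of products -/
theorem tendsto_mul {S T : ℕ → (K →L[ℂ] K)} {A B : K →L[ℂ] K} {C : ℝ} (hC : ∀ n, ‖S n‖ ≤ C)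
    (hS : ∀ ξ, Tendsto (fun n => S n ξ) atTop (𝓝 (A ξ)))
    (hT : ∀ ξ, Tendsto (fun n => T n ξ) atTop (𝓝 (B ξ))) (ξ : K) :
    Tendsto (fun n => (S n * T n) ξ) atTop (𝓝 ((A * B) ξ)) := by
  have h1 : Tendsto (fun n => S n (T n ξ - B ξ)) atTop (𝓝 0) := by
    refine squeeze_zero_norm (a := fun n => C * ‖T n ξ - B ξ‖) (fun n => ?_) ?_
    · exact ((S n).le_opNorm _).trans (mul_le_mul_of_nonneg_right (hC n) (norm_nonneg _))
    · have h2 := (tendsto_iff_norm_sub_tendsto_zero.1 (hT ξ)).const_mul C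
      rwa [mul_zero] at h2
  have h2 := h1.add (hS (B ξ))
  rw [zero_add] at h2
  refine h2.congr fun n => ?_
  change S n (T n ξ - B ξ) + S n (B ξ) = S n (T n ξ)
  rw [map_sub, sub_add_cancel]

theorem IsUn.opNorm {U : K →L[ℂ] K} (h : IsUn U) : ‖U‖ ≤ 1 :=
  U.opNorm_le_bound zero_le_one fun ξ => by rw [h.norm, one_mul]

end frame

/-! ### operators of the calculus -/

section calc'

variable {Z : Type*} [MeasurableSpace Z] {K : Type*} [NormedAddCommGroup K]
  [InnerProductSpace ℂ K] [CompleteSpace K] {E : PV Z K} {f g : Z → ℂ}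

theorem isUn_bc (hf : BM f) {N : Set Z} (hN : MeasurableSet N) (h0 : E.p N = 0)
    (h : ∀ z, z ∉ N → ‖f z‖ = 1) : IsUn (E.bc f) := by
  have e1 : E.bc (fun z => conj (f z) * f z) = 1 := by
    rw [← E.bc_one]
    refine E.bc_congr (hf.conj.mul hf) (BM.const 1) (E.p_null ?_ hN (fun z hz => ?_) h0)
    · exact (measurableSet_eq_fun (hf.conj.mul hf).1 measurable_const).compl
    · by_contra hz'
      apply hz
      have h1 := h z hz'
      change conj (f z) * f z = 1
      rw [RCLike.conj_mul, h1]; simp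
  refine ⟨?_, ?_⟩
  · rw [← E.bc_conj hf, E.bc_mul hf.conj hf, e1]
  · rw [← E.bc_conj hf, E.bc_comm hf hf.conj, E.bc_mul hf.conj hf, e1]

/-- an operator which commutes with the law of `v` commutes with functions of `v` -/
theorem comm_bc {Y : Type*} [MeasurableSpace Y] {v : Z → Y} (hv : Measurable v) {U : K →L[ℂ] K}
    (h : Law E U v v) {f : Y → ℂ} (hf : BM f) :
    U * E.bc (fun z => f (v z)) = E.bc (fun z => f (v z)) * U := h.bc hv hv hf

end calc'

/-! ### algebra -/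

section alg

variable {M : Type*} [Monoid M]

theorem alg1 {l X V Xs Vs z zs z' zs' : M} (h1 : l * X = z * X * l) (h2 : l * V = z' * V * l)
    (h3 : l * Xs = zs * Xs * l) (h4 : l * Vs = zs' * Vs * l) (c1 : X * z' = z' * X)
    (c2 : V * zs = zs * V) (c3 : X * zs = zs * X) (c4 : Xs * zs' = zs' * Xs)
    (c5 : V * zs' = zs' * V) (c6 : X * zs' = zs' * X) (c7 : z' * zs = zs * z')
    (u1 : z * zs = 1) (u2 : z' * zs' = 1) : l * (X * V * Xs * Vs) = X * V * Xs * Vs * l := by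
  calc l * (X * V * Xs * Vs) = (l * X) * V * Xs * Vs := by simp only [mul_assoc]
    _ = z * X * (l * V) * Xs * Vs := by rw [h1]; simp only [mul_assoc]
    _ = z * X * z' * V * (l * Xs) * Vs := by rw [h2]; simp only [mul_assoc]
    _ = z * X * z' * V * zs * Xs * (l * Vs) := by rw [h3]; simp only [mul_assoc]
    _ = z * (X * z') * (V * zs) * (Xs * zs') * Vs * l := by rw [h4]; simp only [mul_assoc]
    _ = z * z' * (X * zs) * (V * zs') * Xs * Vs * l := by
        rw [c1, c2, c4]; simp only [mul_assoc]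
    _ = z * (z' * zs) * (X * zs') * V * Xs * Vs * l := by rw [c3, c5]; simp only [mul_assoc]
    _ = (z * zs) * (z' * zs') * X * V * Xs * Vs * l := by rw [c7, c6]; simp only [mul_assoc]
    _ = X * V * Xs * Vs * l := by rw [u1, u2, one_mul, one_mul]

theorem alg2 {l V Vs P₁ P₀ N₁ N₀ Ns z' zs' : M} (h1 : l * V = z' * V * l)
    (h2 : l * P₁ = P₁ * N₁ * l) (h3 : l * Vs = zs' * Vs * l) (h4 : l * P₀ = P₀ * Ns * l)
    (c1 : N₁ * zs' = zs' * N₁) (c2 : P₁ * zs' = zs' * P₁) (c3 : V * zs' = zs' * V)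
    (c4 : P₀ * Ns = Ns * P₀) (hN : N₁ * Vs = Vs * N₀) (u1 : z' * zs' = 1) (u2 : N₀ * Ns = 1) :
    l * (V * P₁ * Vs * P₀) = V * P₁ * Vs * P₀ * l := by
  calc l * (V * P₁ * Vs * P₀) = (l * V) * P₁ * Vs * P₀ := by simp only [mul_assoc]
    _ = z' * V * (l * P₁) * Vs * P₀ := by rw [h1]; simp only [mul_assoc]
    _ = z' * V * P₁ * N₁ * (l * Vs) * P₀ := by rw [h2]; simp only [mul_assoc]
    _ = z' * V * P₁ * (N₁ * zs') * Vs * (l * P₀) := by rw [h3]; simp only [mul_assoc]
    _ = z' * V * (P₁ * zs') * (N₁ * Vs) * (P₀ * Ns) * l := by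
        rw [h4, c1]; simp only [mul_assoc]
    _ = z' * (V * zs') * P₁ * Vs * (N₀ * Ns) * P₀ * l := by
        rw [c2, hN, c4]; simp only [mul_assoc]
    _ = (z' * zs') * V * P₁ * Vs * P₀ * l := by
        rw [c3, u2, mul_one]; simp only [mul_assoc]
    _ = V * P₁ * Vs * P₀ * l := by rw [u1, one_mul]

theorem alg3 {l P Q Ps Qs N Ns N' Ns' : M} (h1 : l * P = P * N * l) (h2 : l * Q = Q * N' * l)
    (h3 : l * Ps = Ps * Ns * l) (h4 : l * Qs = Qs * Ns' * l) (c1 : Ps * Ns = Ns * Ps)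
    (c2 : Qs * Ns' = Ns' * Qs) (c3 : N' * Ns = Ns * N') (c4 : N' * Ps = Ps * N')
    (c5 : N * Q = Q * N) (u1 : N * Ns = 1) (u2 : N' * Ns' = 1) :
    l * (P * Q * Ps * Qs) = P * Q * Ps * Qs * l := by
  calc l * (P * Q * Ps * Qs) = (l * P) * Q * Ps * Qs := by simp only [mul_assoc]
    _ = P * N * (l * Q) * Ps * Qs := by rw [h1]; simp only [mul_assoc]
    _ = P * N * Q * N' * (l * Ps) * Qs := by rw [h2]; simp only [mul_assoc]
    _ = P * N * Q * N' * (Ps * Ns) * (l * Qs) := by rw [h3]; simp only [mul_assoc]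
    _ = P * (N * Q) * (N' * Ns) * Ps * (Qs * Ns') * l := by
        rw [h4, c1]; simp only [mul_assoc]
    _ = P * Q * (N * Ns) * (N' * Ps) * Ns' * Qs * l := by
        rw [c5, c3, c2]; simp only [mul_assoc]
    _ = P * Q * Ps * (N' * Ns') * Qs * l := by
        rw [u1, c4, mul_one]; simp only [mul_assoc]
    _ = P * Q * Ps * Qs * l := by rw [u2, mul_one]

end alg

/-! ### one side -/

section side

variable {G Γ K : Type*} [Group G] [Group Γ] [NormedAddCommGroup K]
  [InnerProductSpace ℂ K] [CompleteSpace K]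
  {Z Z' : Type*} [MeasurableSpace Z] [MeasurableSpace Z']
  {F F' : Type*} [NontriviallyNormedField F] [ProperSpace F] [MeasurableSpace F] [BorelSpace F]
  [NontriviallyNormedField F'] [ProperSpace F'] [MeasurableSpace F'] [BorelSpace F']

/-- One side of the gallery. `(a, u)` depends on the remaining chambers only. -/
structure Side (lam : Γ →* (K →L[ℂ] K)) (W : Set (K →L[ℂ] K)) (E : PV Z K) (E' : PV Z' K)
    (x y : Z → F) : Prop where
  mx : Measurable x
  my : Measurable y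
  ne : E.p {z | x z = y z} = 0
  cm : ∀ A, MeasurableSet A → ∀ w ∈ W, E.p A * w = w * E.p A
  gam : ∀ γ : Γ, ∃ a u : Z → F, Measurable a ∧ Measurable u ∧ (∀ z, a z ≠ 0) ∧
    Law E (lam γ) (fun z => (x z, y z)) (fun z => (a z * x z + u z, a z * y z + u z)) ∧
    ∀ B, MeasurableSet B → ∀ A', MeasurableSet A' →
      E.p ((fun z => (a z, u z)) ⁻¹' B) * E'.p A' = E'.p A' * E.p ((fun z => (a z, u z)) ⁻¹' B)

/-- The torus. -/
structure Tor (π : G →* (K →L[ℂ] K)) (lam : Γ →* (K →L[ℂ] K)) (W : Set (K →L[ℂ] K)) (A : Set G)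
    (E : PV Z K) (x y : Z → F) (E' : PV Z' K) (x' y' : Z' → F') : Prop where
  erg : ∀ T, InM lam W T → (∀ g ∈ A, T * π g = π g * T) → ∃ z : ℂ, T = z • (1 : K →L[ℂ] K)
  sc : ∃ (α : G → F) (β : G → F'), (∀ b ∈ A, α b ≠ 0 ∧ β b ≠ 0 ∧
      Law E (π b) (fun z => (x z, y z)) (fun z => (x z, x z + α b * (y z - x z))) ∧
      Law E' (π b) (fun z => (x' z, y' z)) (fun z => (x' z, x' z + β b * (y' z - x' z)))) ∧
    ∃ s : ℕ → G, (∀ n, s n ∈ A) ∧ Tendsto (fun n => ‖α (s n)‖) atTop atTop ∧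
      Tendsto (fun n => ‖β (s n)‖) atTop atTop

variable {π : G →* (K →L[ℂ] K)} {lam : Γ →* (K →L[ℂ] K)} {W : Set (K →L[ℂ] K)} {Ω : K}
  {E : PV Z K} {E' : PV Z' K} {x y : Z → F} {x' y' : Z' → F'} {A : Set G}

theorem Side.swap (S : Side lam W E E' x y) : Side lam W E E' y x where
  mx := S.my
  my := S.mx
  ne := by
    have h := S.ne
    have e : {z | y z = x z} = {z | x z = y z} := by ext z; exact eq_comm
    rw [e]; exact h
  cm := S.cm
  gam γ := by
    obtain ⟨a, u, ha, hu, h0, h1, h2⟩ := S.gam γ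
    exact ⟨a, u, ha, hu, h0, h1.comp measurable_swap, h2⟩

theorem Tor.symm (T : Tor π lam W A E x y E' x' y') : Tor π lam W A E' x' y' E x y where
  erg := T.erg
  sc := by
    obtain ⟨α, β, h1, s, h2, h3, h4⟩ := T.sc
    exact ⟨β, α, fun b hb => ⟨(h1 b hb).2.1, (h1 b hb).1, (h1 b hb).2.2.2, (h1 b hb).2.2.1⟩,
      s, h2, h4, h3⟩

/-- commutation of calculi -/
theorem bc_comm_of {E : PV Z K} {U : K →L[ℂ] K} (h : ∀ A, MeasurableSet A → U * E.p A = E.p A * U)
    {f : Z → ℂ} (hf : BM f) : U * E.bc f = E.bc f * U := E.bc_int E h hf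

theorem Side.bc_W (S : Side lam W E E' x y) {f : Z → ℂ} (hf : BM f) {w : K →L[ℂ] K}
    (hw : w ∈ W) : E.bc f * w = w * E.bc f :=
  (bc_comm_of (fun A hA => (S.cm A hA w hw).symm) hf).symm

/-- functions of `(a, u)` commute with the other side -/
theorem au_comm {a u : Z → F} (ha : Measurable a) (hu : Measurable u)
    (h : ∀ B, MeasurableSet B → ∀ A', MeasurableSet A' →
      E.p ((fun z => (a z, u z)) ⁻¹' B) * E'.p A' = E'.p A' * E.p ((fun z => (a z, u z)) ⁻¹' B))
    {f : F × F → ℂ} (hf : BM f) {g : Z' → ℂ} (hg : BM g) :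
    E.bc (fun z => f (a z, u z)) * E'.bc g = E'.bc g * E.bc (fun z => f (a z, u z)) := by
  refine bc_comm_of (E := E') (fun A' hA' => ?_) hg
  have h1 : Law E (E'.p A') (fun z => (a z, u z)) (fun z => (a z, u z)) :=
    fun B hB => (h B hB A' hA').symm
  exact (h1.bc (ha.prodMk hu) (ha.prodMk hu) hf).symm

theorem Side.mr (S : Side lam W E E' x y) : Measurable fun z => y z - x z := S.my.sub S.mx

theorem Side.ms (S : Side lam W E E' x y) : MeasurableSet {z | x z = y z} :=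
  measurableSet_eq_fun S.mx S.my

variable {J J' : Type*} [Countable J] [Countable J'] {χ : J → F → ℂ} {χ' : J' → F' → ℂ}
  {ψ : F → ℂ} {ψ' : F' → ℂ}

theorem Side.unX (S : Side lam W E E' x y) (hχ : IsChi χ) (j : J) :
    IsUn (E.bc fun z => χ j (y z - x z)) :=
  isUn_bc ((hχ.bm j).comp S.mr) S.ms S.ne fun z hz =>
    hχ.nrm j _ (sub_ne_zero.2 fun h => hz h.symm)

theorem Side.lamX (S : Side lam W E E' x y) {η : F → ℂ} (hη : BM η)
    (hm : ∀ s t, η (s * t) = η s * η t) {γ : Γ} {a u : Z → F} (ha : Measurable a)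
    (hu : Measurable u)
    (h1 : Law E (lam γ) (fun z => (x z, y z)) (fun z => (a z * x z + u z, a z * y z + u z))) :
    lam γ * E.bc (fun z => η (y z - x z)) =
      E.bc (fun z => η (a z)) * E.bc (fun z => η (y z - x z)) * lam γ := by
  have h := h1.bc (S.mx.prodMk S.my) (((ha.mul S.mx).add hu).prodMk ((ha.mul S.my).add hu))
    (f := fun p => η (p.2 - p.1)) (hη.comp (measurable_snd.sub measurable_fst))
  simp only at h
  rw [h, E.bc_mul (hη.comp ha) (hη.comp S.mr)]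
  congr 2
  funext z
  rw [← hm]
  congr 1
  ring

theorem Side.lamP (S : Side lam W E E' x y) {η : F → ℂ} (hη : BM η)
    (hm : ∀ s t, η (s + t) = η s * η t) {γ : Γ} {a u : Z → F} (ha : Measurable a)
    (hu : Measurable u) (h0 : ∀ z, a z ≠ 0)
    (h1 : Law E (lam γ) (fun z => (x z, y z)) (fun z => (a z * x z + u z, a z * y z + u z)))
    (t : F) :
    lam γ * E.bc (fun z => η (t * (x z * (y z - x z)⁻¹))) =
      E.bc (fun z => η (t * (x z * (y z - x z)⁻¹))) *
        E.bc (fun z => η (t * (u z * (a z * (y z - x z))⁻¹))) * lam γ := by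
  have h := h1.bc (S.mx.prodMk S.my) (((ha.mul S.mx).add hu).prodMk ((ha.mul S.my).add hu))
    (f := fun p => η (t * (p.1 * (p.2 - p.1)⁻¹)))
    (hη.comp ((measurable_fst.mul (measurable_snd.sub measurable_fst).inv).const_mul t))
  simp only at h
  have m1 : Measurable fun z => t * (x z * (y z - x z)⁻¹) := (S.mx.mul S.mr.inv).const_mul t
  have m2 : Measurable fun z => t * (u z * (a z * (y z - x z))⁻¹) :=
    (hu.mul (ha.mul S.mr).inv).const_mul t
  rw [h, E.bc_mul (hη.comp m1) (hη.comp m2)]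
  congr 2
  funext z
  rw [← hm]
  congr 1
  have e1 : a z * y z + u z - (a z * x z + u z) = a z * (y z - x z) := by ring
  rw [e1, mul_inv, ← mul_add]
  congr 1
  have e2 : (a z * x z + u z) * ((a z)⁻¹ * (y z - x z)⁻¹) =
      (a z * (a z)⁻¹) * (x z * (y z - x z)⁻¹) + u z * ((a z)⁻¹ * (y z - x z)⁻¹) := by ring
  rw [e2, mul_inv_cancel₀ (h0 z), one_mul]

theorem Side.piX (S : Side lam W E E' x y) {η : F → ℂ} (hη : BM η)
    (hm : ∀ s t, η (s * t) = η s * η t) {b : G} {α : F}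
    (h1 : Law E (π b) (fun z => (x z, y z)) (fun z => (x z, x z + α * (y z - x z)))) :
    π b * E.bc (fun z => η (y z - x z)) = (η α • E.bc (fun z => η (y z - x z))) * π b := by
  have h := h1.bc (S.mx.prodMk S.my) (S.mx.prodMk (S.mx.add (S.mr.const_mul α)))
    (f := fun p => η (p.2 - p.1)) (hη.comp (measurable_snd.sub measurable_fst))
  simp only at h
  rw [h, ← E.bc_smul _ (hη.comp S.mr)]
  congr 2
  funext z
  rw [← hm]
  congr 1
  ring

theorem Side.piP (S : Side lam W E E' x y) {η : F → ℂ} (hη : BM η) {b : G} {α : F}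
    (h1 : Law E (π b) (fun z => (x z, y z)) (fun z => (x z, x z + α * (y z - x z)))) (t : F) :
    π b * E.bc (fun z => η (t * (x z * (y z - x z)⁻¹))) =
      E.bc (fun z => η ((t * α⁻¹) * (x z * (y z - x z)⁻¹))) * π b := by
  have h := h1.bc (S.mx.prodMk S.my) (S.mx.prodMk (S.mx.add (S.mr.const_mul α)))
    (f := fun p => η (t * (p.1 * (p.2 - p.1)⁻¹)))
    (hη.comp ((measurable_fst.mul (measurable_snd.sub measurable_fst).inv).const_mul t))
  simp only at h
  rw [h]
  congr 2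
  funext z
  congr 1
  have e1 : x z + α * (y z - x z) - x z = α * (y z - x z) := by ring
  rw [e1, mul_inv]
  ring

theorem IsChi.mulc (hχ : IsChi χ) (j : J) (s t : F) :
    conj (χ j (s * t)) = conj (χ j s) * conj (χ j t) := by rw [hχ.mul, map_mul]

theorem IsPsi.addc (hψ : IsPsi ψ) (s t : F) : conj (ψ (s + t)) = conj (ψ s) * conj (ψ t) := by
  rw [hψ.add, map_mul]

theorem IsChi.unit (hχ : IsChi χ) (j : J) {s : F} (hs : s ≠ 0) : χ j s * conj (χ j s) = 1 := by
  rw [RCLike.mul_conj, hχ.nrm j s hs]; simp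

theorem IsPsi.unit (hψ : IsPsi ψ) (s : F) : ψ s * conj (ψ s) = 1 := by
  rw [RCLike.mul_conj, hψ.nrm s]; simp

/-- **(1) The commutator of the units is a scalar.** -/
theorem scal (hF : Fr π lam W Ω) (hχ : IsChi χ) (hχ' : IsChi χ') (S : Side lam W E E' x y)
    (S' : Side lam W E' E x' y') (T : Tor π lam W A E x y E' x' y') (j : J) (i : J') :
    ∃ c : ℂ, ‖c‖ = 1 ∧ E'.bc (fun z => χ' i (y' z - x' z)) * E.bc (fun z => χ j (y z - x z)) =
      c • (E.bc (fun z => χ j (y z - x z)) * E'.bc (fun z => χ' i (y' z - x' z))) := by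
  have uX := S.unX hχ j
  have uV := S'.unX hχ' i
  have bX : BM fun z => χ j (y z - x z) := (hχ.bm j).comp S.mr
  have bV : BM fun z => χ' i (y' z - x' z) := (hχ'.bm i).comp S'.mr
  have hXs := E.bc_conj bX
  have hVs := E'.bc_conj bV
  obtain ⟨X, hX⟩ : ∃ X, X = E.bc (fun z => χ j (y z - x z)) := ⟨_, rfl⟩
  obtain ⟨V, hV⟩ : ∃ V, V = E'.bc (fun z => χ' i (y' z - x' z)) := ⟨_, rfl⟩
  obtain ⟨Xs, hXs'⟩ : ∃ Xs, Xs = E.bc (fun z => conj (χ j (y z - x z))) := ⟨_, rfl⟩
  obtain ⟨Vs, hVs'⟩ : ∃ Vs, Vs = E'.bc (fun z => conj (χ' i (y' z - x' z))) := ⟨_, rfl⟩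
  rw [← hX] at uX hXs
  rw [← hV] at uV hVs
  rw [← hXs'] at hXs
  rw [← hVs'] at hVs
  rw [← hX, ← hV]
  have hM : InM lam W (X * V * Xs * Vs) := by
    refine ⟨fun w hw => ?_, fun γ => ?_⟩
    · have c1 : X * w = w * X := by rw [hX]; exact S.bc_W bX hw
      have c2 : V * w = w * V := by rw [hV]; exact S'.bc_W bV hw
      have c3 : Xs * w = w * Xs := by rw [hXs']; exact S.bc_W bX.conj hw
      have c4 : Vs * w = w * Vs := by rw [hVs']; exact S'.bc_W bV.conj hw
      rw [mul_assoc _ Vs w, c4, ← mul_assoc, mul_assoc _ Xs w, c3, ← mul_assoc, mul_assoc _ V w,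
        c2, ← mul_assoc, c1]
      simp only [mul_assoc]
    · obtain ⟨a, u, ha, hu, h0, h1, h2⟩ := S.gam γ
      obtain ⟨a', u', ha', hu', h0', h1', h2'⟩ := S'.gam γ
      have ba : BM fun z => χ j (a z) := (hχ.bm j).comp ha
      have ba' : BM fun z => χ' i (a' z) := (hχ'.bm i).comp ha'
      have e1 := S.lamX (hχ.bm j) (hχ.mul j) ha hu h1
      have e2 := S'.lamX (hχ'.bm i) (hχ'.mul i) ha' hu' h1'
      have e3 := S.lamX (hχ.bm j).conj (hχ.mulc j) ha hu h1
      have e4 := S'.lamX (hχ'.bm i).conj (hχ'.mulc i) ha' hu' h1'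
      rw [← hX] at e1
      rw [← hV] at e2
      rw [← hXs'] at e3
      rw [← hVs'] at e4
      have cz' : ∀ g : Z → ℂ, BM g → E.bc g * E'.bc (fun z => χ' i (a' z)) =
          E'.bc (fun z => χ' i (a' z)) * E.bc g := fun g hg =>
        (au_comm ha' hu' h2' (f := fun p => χ' i p.1) ((hχ'.bm i).comp measurable_fst) hg).symm
      have czs' : ∀ g : Z → ℂ, BM g → E.bc g * E'.bc (fun z => conj (χ' i (a' z))) =
          E'.bc (fun z => conj (χ' i (a' z))) * E.bc g := fun g hg =>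
        (au_comm ha' hu' h2' (f := fun p => conj (χ' i p.1)) ((hχ'.bm i).conj.comp measurable_fst)
          hg).symm
      have czs : ∀ g : Z' → ℂ, BM g → E'.bc g * E.bc (fun z => conj (χ j (a z))) =
          E.bc (fun z => conj (χ j (a z))) * E'.bc g := fun g hg =>
        (au_comm ha hu h2 (f := fun p => conj (χ j p.1)) ((hχ.bm j).conj.comp measurable_fst)
          hg).symm
      refine (alg1 e1 e2 e3 e4 ?_ ?_ ?_ ?_ ?_ ?_ ?_ ?_ ?_).symm
      · rw [hX]; exact cz' _ bX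
      · rw [hV]; exact czs _ bV
      · rw [hX]; exact E.bc_comm bX ba.conj
      · rw [hXs']; exact czs' _ bX.conj
      · rw [hV]; exact E'.bc_comm bV ba'.conj
      · rw [hX]; exact czs' _ bX
      · exact czs _ ba'
      · rw [E.bc_mul ba ba.conj, ← E.bc_one]
        congr 1
        funext z
        exact hχ.unit j (h0 z)
      · rw [E'.bc_mul ba' ba'.conj, ← E'.bc_one]
        congr 1
        funext z
        exact hχ'.unit i (h0' z)
  obtain ⟨α, β, h1, -⟩ := T.sc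
  obtain ⟨z, hz⟩ := T.erg _ hM (fun b hb => by
    obtain ⟨hα, hβ, h2, h3⟩ := h1 b hb
    have e1 := S.piX (hχ.bm j) (hχ.mul j) h2
    have e2 := S'.piX (hχ'.bm i) (hχ'.mul i) h3
    have e3 := S.piX (hχ.bm j).conj (hχ.mulc j) h2
    have e4 := S'.piX (hχ'.bm i).conj (hχ'.mulc i) h3
    rw [← hX] at e1
    rw [← hV] at e2
    rw [← hXs'] at e3
    rw [← hVs'] at e4
    symm
    calc π b * (X * V * Xs * Vs) = (π b * X) * V * Xs * Vs := by simp only [mul_assoc]
      _ = (χ j (α b) • X) * (π b * V) * Xs * Vs := by rw [e1]; simp only [mul_assoc]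
      _ = (χ j (α b) • X) * (χ' i (β b) • V) * (π b * Xs) * Vs := by
          rw [e2]; simp only [mul_assoc]
      _ = (χ j (α b) • X) * (χ' i (β b) • V) * (conj (χ j (α b)) • Xs) * (π b * Vs) := by
          rw [e3]; simp only [mul_assoc]
      _ = (χ j (α b) • X) * (χ' i (β b) • V) * (conj (χ j (α b)) • Xs) *
          (conj (χ' i (β b)) • Vs) * π b := by rw [e4]; simp only [mul_assoc]
      _ = ((χ j (α b) * conj (χ j (α b))) * (χ' i (β b) * conj (χ' i (β b)))) •
          (X * V * Xs * Vs) * π b := by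
          simp only [smul_mul_assoc, mul_smul_comm, smul_smul]
          congr 1
          ring
      _ = X * V * Xs * Vs * π b := by
          rw [hχ.unit j hα, hχ'.unit i hβ, one_mul, one_smul])
  have uT : IsUn (X * V * Xs * Vs) := by
    rw [hXs, hVs]
    exact ((uX.mul uV).mul uX.adj).mul uV.adj
  have hz1 : ‖z‖ = 1 := by
    have h2 := uT.norm Ω
    rw [hz, ContinuousLinearMap.smul_apply, norm_smul, one_apply_eq_self, hF.nΩ, mul_one] at h2
    exact h2
  have hz0 : z ≠ 0 := by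
    intro h; rw [h, norm_zero] at hz1; exact zero_ne_one hz1
  have h2 : X * V = z • (V * X) := by
    have h3 : X * V * Xs * Vs * (V * X) = X * V := by
      rw [hXs, hVs]
      calc X * V * adjoint X * adjoint V * (V * X)
          = X * V * adjoint X * (adjoint V * V) * X := by simp only [mul_assoc]
        _ = X * V * (adjoint X * X) := by rw [uV.l, mul_one]; simp only [mul_assoc]
        _ = X * V := by rw [uX.l, mul_one]
    rw [← h3, hz, smul_mul_assoc, one_mul]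
  refine ⟨z⁻¹, by rw [norm_inv, hz1, inv_one], ?_⟩
  rw [h2, smul_smul, inv_mul_cancel₀ hz0, one_smul]

end side

end Vale.Agent.P092.H767
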