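import Vale.Agent.P092.H767.WStep

/-!
P092 (helper767), Team W: THEOREM W (split residues), second half: `half` (an end point of one
side commutes with the unit of the other side) and `w_step`.
-/

set_option linter.all false

open MeasureTheory Topology Filter Set ContinuousLinearMap
open scoped InnerProductSpace ENNReal ComplexConjugate BoundedContinuousFunction

namespace Vale.Agent.P092.H767

section side

variable {G Γ K : Type*} [Group G] [Group Γ] [NormedAddCommGroup K]
  [InnerProductSpace ℂ K] [CompleteSpace K]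
  {Z Z' : Type*} [MeasurableSpace Z] [MeasurableSpace Z']
  {F F' : Type*} [NontriviallyNormedField F] [ProperSpace F] [MeasurableSpace F] [BorelSpace F]
  [NontriviallyNormedField F'] [ProperSpace F'] [MeasurableSpace F'] [BorelSpace F']
  {π : G →* (K →L[ℂ] K)} {lam : Γ →* (K →L[ℂ] K)} {W : Set (K →L[ℂ] K)} {Ω : K}
  {E : PV Z K} {E' : PV Z' K} {x y : Z → F} {x' y' : Z' → F'} {A : Set G}
  {J J' : Type*} [Countable J] [Countable J'] {χ : J → F → ℂ} {χ' : J' → F' → ℂ}
  {ψ : F → ℂ} {ψ' : F' → ℂ}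

theorem Side.mw (S : Side lam W E E' x y) : Measurable fun z => x z * (y z - x z)⁻¹ :=
  S.mx.mul S.mr.inv

theorem unP (E : PV Z K) (hψ : IsPsi ψ) {v : Z → F} (hv : Measurable v) (t : F) :
    IsUn (E.bc fun z => ψ (t * v z)) :=
  isUn_bc (hψ.bm.comp (hv.const_mul t)) MeasurableSet.empty E.p_empty fun z _ => hψ.nrm _

theorem unPc (E : PV Z K) (hψ : IsPsi ψ) {v : Z → F} (hv : Measurable v) (t : F) :
    IsUn (E.bc fun z => conj (ψ (t * v z))) :=
  isUn_bc (hψ.bm.conj.comp (hv.const_mul t)) MeasurableSet.empty E.p_empty fun z _ => by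
    rw [RCLike.norm_conj]; exact hψ.nrm _

theorem limP (E : PV Z K) (hψ : IsPsi ψ) {v : Z → F} (hv : Measurable v) {s : ℕ → F}
    (hs : Tendsto s atTop (𝓝 0)) (ξ : K) :
    Tendsto (fun n => E.bc (fun z => ψ (s n * v z)) ξ) atTop (𝓝 ξ) := by
  have h := E.tendsto_bc (s := fun n z => ψ (s n * v z)) (g := fun _ => 1) (C := 1)
    (fun n => hψ.cont.measurable.comp (hv.const_mul _)) (fun n z => (hψ.nrm _).le)
    measurable_const (fun z => by rw [norm_one]) (fun z => by
      have h1 : Tendsto (fun n => s n * v z) atTop (𝓝 (0 * v z)) := hs.mul_const _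
      rw [zero_mul] at h1
      have h2 := (hψ.cont.tendsto 0).comp h1
      rw [hψ.zero] at h2
      exact h2) ξ
  rw [E.bc_one] at h
  exact h

theorem limPc (E : PV Z K) (hψ : IsPsi ψ) {v : Z → F} (hv : Measurable v) {s : ℕ → F}
    (hs : Tendsto s atTop (𝓝 0)) (ξ : K) :
    Tendsto (fun n => E.bc (fun z => conj (ψ (s n * v z))) ξ) atTop (𝓝 ξ) := by
  have h := limP E hψ hv (s := fun n => -s n) (by simpa using hs.neg) ξ
  refine h.congr fun n => ?_
  congr 2
  funext z
  rw [neg_mul, hψ.neg]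

/-- the end point from the ratio and the unit -/
theorem Side.recon (S : Side lam W E E' x y) {U : K →L[ℂ] K}
    (h1 : Law E U (fun z => x z * (y z - x z)⁻¹) (fun z => x z * (y z - x z)⁻¹))
    (h2 : Law E U (fun z => y z - x z) (fun z => y z - x z)) :
    Law E U (fun z => (x z, y z)) (fun z => (x z, y z)) := by
  have h3 := (h1.prod h2 S.mw S.mw S.mr S.mr).comp
    (φ := fun p : F × F => (p.1 * p.2, p.1 * p.2 + p.2))
    ((measurable_fst.mul measurable_snd).prodMk
      ((measurable_fst.mul measurable_snd).add measurable_snd))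
  have hm : Measurable fun z => (x z * (y z - x z)⁻¹ * (y z - x z),
      x z * (y z - x z)⁻¹ * (y z - x z) + (y z - x z)) :=
    (S.mw.mul S.mr).prodMk ((S.mw.mul S.mr).add S.mr)
  have he : ∀ z, z ∉ {z | x z = y z} → (x z * (y z - x z)⁻¹ * (y z - x z),
      x z * (y z - x z)⁻¹ * (y z - x z) + (y z - x z)) = (x z, y z) := by
    intro z hz
    have h4 : y z - x z ≠ 0 := sub_ne_zero.2 fun h => hz h.symm
    rw [inv_mul_cancel_right₀ h4, add_sub_cancel]
  exact (h3.congr hm (S.mx.prodMk S.my) S.ms S.ne he).congr_left hm (S.mx.prodMk S.my) S.ms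
    S.ne he

/-- `U` commutes with `(a, u)` if it commutes with the other side. -/
theorem law_au {a u : Z → F}
    (h : ∀ B, MeasurableSet B → ∀ A', MeasurableSet A' →
      E.p ((fun z => (a z, u z)) ⁻¹' B) * E'.p A' = E'.p A' * E.p ((fun z => (a z, u z)) ⁻¹' B))
    {g : Z' → ℂ} (hg : BM g) : Law E (E'.bc g) (fun z => (a z, u z)) (fun z => (a z, u z)) :=
  fun B hB => (bc_comm_of (E := E') (fun A' hA' => h B hB A' hA') hg).symm

/-- **(2) An end point of one side commutes with the unit of the other side.** -/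
theorem half (hF : Fr π lam W Ω) (hψ : IsPsi ψ) (hχ : IsChi χ) (hχ' : IsChi χ')
    (S : Side lam W E E' x y) (S' : Side lam W E' E x' y')
    (T : Tor π lam W A E x y E' x' y') (i : J') :
    Law E (E'.bc (fun z => χ' i (y' z - x' z))) x x := by
  haveI : Nontrivial K := ⟨⟨Ω, 0, fun h => by
    have h1 := hF.nΩ
    rw [h, norm_zero] at h1
    exact zero_ne_one h1⟩⟩
  have uV := S'.unX hχ' i
  have bV : BM fun z => χ' i (y' z - x' z) := (hχ'.bm i).comp S'.mr
  have hne : E.p {z | y z - x z = 0} = 0 := by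
    have e : {z | y z - x z = 0} = {z | x z = y z} := by
      ext z; exact sub_eq_zero.trans eq_comm
    rw [e]; exact S.ne
  choose c hc1 hc2 using fun j => scal hF hχ hχ' S S' T j i
  obtain ⟨κ, hκ0, -, hκ⟩ := law_kappa hχ uV S.mr hne hc1 hc2
  have hVs := E'.bc_conj bV
  obtain ⟨V, hV⟩ : ∃ V, V = E'.bc (fun z => χ' i (y' z - x' z)) := ⟨_, rfl⟩
  obtain ⟨Vs, hVs'⟩ : ∃ Vs, Vs = E'.bc (fun z => conj (χ' i (y' z - x' z))) := ⟨_, rfl⟩
  rw [← hV] at uV hVs hκ
  rw [← hVs'] at hVs
  rw [← hV]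
  have hVVs : V * Vs = 1 := by rw [hVs]; exact uV.r
  have hVsV : Vs * V = 1 := by rw [hVs]; exact uV.l
  have bw : ∀ t : F, BM fun z => ψ (t * (x z * (y z - x z)⁻¹)) := fun t =>
    hψ.bm.comp (S.mw.const_mul t)
  -- the main identity
  have key : ∀ t : F, V * E.bc (fun z => ψ (t * κ * (x z * (y z - x z)⁻¹))) * Vs *
      E.bc (fun z => conj (ψ (t * (x z * (y z - x z)⁻¹)))) = 1 := by
    intro t
    have hM : InM lam W (V * E.bc (fun z => ψ (t * κ * (x z * (y z - x z)⁻¹))) * Vs *
        E.bc (fun z => conj (ψ (t * (x z * (y z - x z)⁻¹))))) := by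
      refine ⟨fun w hw => ?_, fun γ => ?_⟩
      · have c1 : V * w = w * V := by rw [hV]; exact S'.bc_W bV hw
        have c2 : Vs * w = w * Vs := by rw [hVs']; exact S'.bc_W bV.conj hw
        have c3 := S.bc_W (bw (t * κ)) hw
        have c4 := S.bc_W (bw t).conj hw
        rw [mul_assoc _ _ w, c4, ← mul_assoc, mul_assoc _ Vs w, c2, ← mul_assoc, mul_assoc _ _ w,
          c3, ← mul_assoc, c1]
        simp only [mul_assoc]
      · obtain ⟨a, u, ha, hu, h0, h1, h2⟩ := S.gam γ
        obtain ⟨a', u', ha', hu', h0', h1', h2'⟩ := S'.gam γ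
        have ba' : BM fun z => χ' i (a' z) := (hχ'.bm i).comp ha'
        have bn : ∀ t : F, BM fun z => ψ (t * (u z * (a z * (y z - x z))⁻¹)) := fun t =>
          hψ.bm.comp ((hu.mul (ha.mul S.mr).inv).const_mul t)
        have e1 := S'.lamX (hχ'.bm i) (hχ'.mul i) ha' hu' h1'
        have e2 := S.lamP hψ.bm hψ.add ha hu h0 h1 (t * κ)
        have e3 := S'.lamX (hχ'.bm i).conj (hχ'.mulc i) ha' hu' h1'
        have e4 := S.lamP hψ.bm.conj hψ.addc ha hu h0 h1 t
        rw [← hV] at e1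
        rw [← hVs'] at e3
        have czs' : ∀ g : Z → ℂ, BM g → E.bc g * E'.bc (fun z => conj (χ' i (a' z))) =
            E'.bc (fun z => conj (χ' i (a' z))) * E.bc g := fun g hg =>
          (au_comm ha' hu' h2' (f := fun p => conj (χ' i p.1))
            ((hχ'.bm i).conj.comp measurable_fst) hg).symm
        refine (alg2 e1 e2 e3 e4 (czs' _ (bn _)) (czs' _ (bw _)) ?_
          (E.bc_comm (bw t).conj (bn t).conj)
          (N₀ := E.bc (fun z => ψ (t * (u z * (a z * (y z - x z))⁻¹)))) ?_ ?_ ?_).symm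
        · rw [hV]; exact E'.bc_comm bV ba'.conj
        · have hau := law_au h2 bV
          rw [← hV] at hau
          have h3 := (hκ.prod hau S.mr (S.mr.const_mul κ) (ha.prodMk hu) (ha.prodMk hu)).bc
            (f := fun p : F × (F × F) => ψ (t * κ * (p.2.2 * (p.2.1 * p.1)⁻¹)))
            (S.mr.prodMk (ha.prodMk hu)) ((S.mr.const_mul κ).prodMk (ha.prodMk hu))
            (hψ.bm.comp (((measurable_snd.comp measurable_snd).mul
              ((measurable_fst.comp measurable_snd).mul measurable_fst).inv).const_mul _))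
          simp only at h3
          have e5 : (fun z => ψ (t * κ * (u z * (a z * (κ * (y z - x z)))⁻¹))) =
              fun z => ψ (t * (u z * (a z * (y z - x z))⁻¹)) := by
            funext z
            congr 1
            have e6 : (a z * (κ * (y z - x z)))⁻¹ = κ⁻¹ * (a z * (y z - x z))⁻¹ := by
              rw [← mul_inv]; congr 1; ring
            rw [e6]
            have e7 : t * κ * (u z * (κ⁻¹ * (a z * (y z - x z))⁻¹)) =
                (κ * κ⁻¹) * (t * (u z * (a z * (y z - x z))⁻¹)) := by ring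
            rw [e7, mul_inv_cancel₀ hκ0, one_mul]
          rw [e5] at h3
          calc E.bc (fun z => ψ (t * κ * (u z * (a z * (y z - x z))⁻¹))) * Vs
              = Vs * (V * E.bc (fun z => ψ (t * κ * (u z * (a z * (y z - x z))⁻¹)))) * Vs := by
                rw [← mul_assoc, hVsV, one_mul]
            _ = Vs * E.bc (fun z => ψ (t * (u z * (a z * (y z - x z))⁻¹))) * (V * Vs) := by
                rw [h3]; simp only [mul_assoc]
            _ = _ := by rw [hVVs, mul_one]
        · rw [E'.bc_mul ba' ba'.conj, ← E'.bc_one]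
          congr 1
          funext z
          exact hχ'.unit i (h0' z)
        · rw [E.bc_mul (bn t) (bn t).conj, ← E.bc_one]
          congr 1
          funext z
          exact hψ.unit _
    obtain ⟨α, β, h1, s, hs, hα, hβ⟩ := T.sc
    have hs0 : Tendsto (fun n => t * (α (s n))⁻¹) atTop (𝓝 0) := by
      have h2 : Tendsto (fun n => (α (s n))⁻¹) atTop (𝓝 0) := by
        rw [tendsto_zero_iff_norm_tendsto_zero]
        simp only [norm_inv]
        exact tendsto_inv_atTop_zero.comp hα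
      simpa using h2.const_mul t
    have hs1 : Tendsto (fun n => t * (α (s n))⁻¹ * κ) atTop (𝓝 0) := by
      simpa using hs0.mul_const κ
    refine hF.eq_one hM (b := s) (S := fun n =>
      V * E.bc (fun z => ψ (t * (α (s n))⁻¹ * κ * (x z * (y z - x z)⁻¹))) * Vs *
        E.bc (fun z => conj (ψ (t * (α (s n))⁻¹ * (x z * (y z - x z)⁻¹))))) (fun n => ?_) ?_
    · obtain ⟨hα0, hβ0, h2, h3⟩ := h1 _ (hs n)
      have e1 := S'.piX (hχ'.bm i) (hχ'.mul i) h3
      have e2 := S.piP hψ.bm h2 (t * κ)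
      have e3 := S'.piX (hχ'.bm i).conj (hχ'.mulc i) h3
      have e4 := S.piP hψ.bm.conj h2 t
      rw [← hV] at e1
      rw [← hVs'] at e3
      have e5 : t * κ * (α (s n))⁻¹ = t * (α (s n))⁻¹ * κ := by ring
      rw [e5] at e2
      obtain ⟨P, hP⟩ : ∃ P, P = E.bc (fun z => ψ (t * κ * (x z * (y z - x z)⁻¹))) := ⟨_, rfl⟩
      obtain ⟨Q, hQ⟩ : ∃ Q, Q = E.bc (fun z => conj (ψ (t * (x z * (y z - x z)⁻¹)))) := ⟨_, rfl⟩
      obtain ⟨P', hP'⟩ : ∃ P', P' =
        E.bc (fun z => ψ (t * (α (s n))⁻¹ * κ * (x z * (y z - x z)⁻¹))) := ⟨_, rfl⟩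
      obtain ⟨Q', hQ'⟩ : ∃ Q', Q' =
        E.bc (fun z => conj (ψ (t * (α (s n))⁻¹ * (x z * (y z - x z)⁻¹)))) := ⟨_, rfl⟩
      rw [← hP, ← hP'] at e2
      rw [← hQ, ← hQ'] at e4
      rw [← hP, ← hQ, ← hP', ← hQ']
      calc π (s n) * (V * P * Vs * Q) = (π (s n) * V) * P * Vs * Q := by simp only [mul_assoc]
        _ = (χ' i (β (s n)) • V) * (π (s n) * P) * Vs * Q := by
            rw [e1]; simp only [mul_assoc]
        _ = (χ' i (β (s n)) • V) * P' * (π (s n) * Vs) * Q := by
            rw [e2]; simp only [mul_assoc]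
        _ = (χ' i (β (s n)) • V) * P' * (conj (χ' i (β (s n))) • Vs) * (π (s n) * Q) := by
            rw [e3]; simp only [mul_assoc]
        _ = (χ' i (β (s n)) * conj (χ' i (β (s n)))) • (V * P' * Vs * Q' * π (s n)) := by
            rw [e4]
            simp only [smul_mul_assoc, mul_smul_comm, smul_smul, mul_assoc]
            congr 1
            ring
        _ = V * P' * Vs * Q' * π (s n) := by rw [hχ'.unit i hβ0, one_smul]
    · have l1 := limP E hψ S.mw hs1
      have l2 := limPc E hψ S.mw hs0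
      have l3 : ∀ ξ, Tendsto (fun n =>
          (V * E.bc (fun z => ψ (t * (α (s n))⁻¹ * κ * (x z * (y z - x z)⁻¹))) * Vs) ξ) atTop
          (𝓝 ((V * Vs) ξ)) := fun ξ => (V.continuous.tendsto _).comp (l1 (Vs ξ))
      have l4 := tendsto_mul (C := 1) (fun n => IsUn.opNorm
        ((uV.mul (unP E hψ S.mw _)).mul (by rw [hVs]; exact uV.adj))) l3
        (T := fun n => E.bc (fun z => conj (ψ (t * (α (s n))⁻¹ * (x z * (y z - x z)⁻¹)))))
        (B := 1) (fun ξ => l2 ξ) Ω
      rw [mul_one, hVVs] at l4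
      exact l4
  have key2 : ∀ t : F, V * E.bc (fun z => ψ (t * (κ * (x z * (y z - x z)⁻¹)))) =
      E.bc (fun z => ψ (t * (x z * (y z - x z)⁻¹))) * V := by
    intro t
    have h1 := key t
    simp only [← mul_assoc]
    have e1 : (fun z => ψ (t * κ * x z * (y z - x z)⁻¹)) =
      fun z => ψ (t * κ * (x z * (y z - x z)⁻¹)) := by
      funext z; rw [mul_assoc (t * κ)]
    have e2 : (fun z => ψ (t * x z * (y z - x z)⁻¹)) =
      fun z => ψ (t * (x z * (y z - x z)⁻¹)) := by
      funext z; rw [mul_assoc t]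
    rw [e1, e2]
    have h2 : E.bc (fun z => conj (ψ (t * (x z * (y z - x z)⁻¹)))) *
        E.bc (fun z => ψ (t * (x z * (y z - x z)⁻¹))) = 1 := by
      rw [E.bc_mul (bw t).conj (bw t), ← E.bc_one]
      congr 1
      funext z
      rw [mul_comm]
      exact hψ.unit _
    obtain ⟨P, hP⟩ : ∃ P, P = E.bc (fun z => ψ (t * κ * (x z * (y z - x z)⁻¹))) := ⟨_, rfl⟩
    obtain ⟨Q, hQ⟩ : ∃ Q, Q = E.bc (fun z => conj (ψ (t * (x z * (y z - x z)⁻¹)))) := ⟨_, rfl⟩
    obtain ⟨R, hR⟩ : ∃ R, R = E.bc (fun z => ψ (t * (x z * (y z - x z)⁻¹))) := ⟨_, rfl⟩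
    rw [← hP, ← hQ] at h1
    rw [← hQ, ← hR] at h2
    rw [← hP, ← hR]
    calc V * P = V * P * Vs * (Q * R) * V := by
          rw [h2, mul_one, mul_assoc (V * P), hVsV, mul_one]
      _ = (V * P * Vs * Q) * (R * V) := by simp only [mul_assoc]
      _ = R * V := by rw [h1, one_mul]
  have hw := law_add hψ uV (S.mw.const_mul κ) S.mw key2
  have h3 := (hw.prod hκ (S.mw.const_mul κ) S.mw S.mr (S.mr.const_mul κ)).comp
    (φ := fun p : F × F => p.1 * p.2 * κ⁻¹)
    ((measurable_fst.mul measurable_snd).mul_const _)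
  have m1 : Measurable fun z => κ * (x z * (y z - x z)⁻¹) * (y z - x z) * κ⁻¹ :=
    ((S.mw.const_mul κ).mul S.mr).mul_const _
  have m2 : Measurable fun z => x z * (y z - x z)⁻¹ * (κ * (y z - x z)) * κ⁻¹ :=
    (S.mw.mul (S.mr.const_mul κ)).mul_const _
  refine (h3.congr m2 S.mx S.ms S.ne fun z hz => ?_).congr_left m1 S.mx S.ms S.ne fun z hz => ?_
  · have h4 : y z - x z ≠ 0 := sub_ne_zero.2 fun h => hz h.symm
    change x z * (y z - x z)⁻¹ * (κ * (y z - x z)) * κ⁻¹ = x z
    field_simp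
  · have h4 : y z - x z ≠ 0 := sub_ne_zero.2 fun h => hz h.symm
    change κ * (x z * (y z - x z)⁻¹) * (y z - x z) * κ⁻¹ = x z
    field_simp

end side

end Vale.Agent.P092.H767
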