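import Vale.Agent.P092.H767.WStep2

/-!
P092 (helper767), Team W: THEOREM W (split residues), the gallery step `w_step`.
-/

set_option linter.all false

open MeasureTheory Topology Filter Set ContinuousLinearMap
open scoped InnerProductSpace ENNReal ComplexConjugate BoundedContinuousFunction

namespace Vale.Agent.P092.H767

section lift

variable {K : Type*} [NormedAddCommGroup K] [InnerProductSpace ℂ K] [CompleteSpace K]
  {Z Z' : Type*} [MeasurableSpace Z] [MeasurableSpace Z']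
  {F F' : Type*} [NontriviallyNormedField F] [ProperSpace F] [MeasurableSpace F] [BorelSpace F]
  [NontriviallyNormedField F'] [ProperSpace F'] [MeasurableSpace F'] [BorelSpace F']
  {E : PV Z K} {E' : PV Z' K} {Y Y' : Type*} [MeasurableSpace Y] [MeasurableSpace Y']
  {J' : Type*} [Countable J'] {χ' : J' → F' → ℂ} {ψ' : F' → ℂ}

/-- the laws of `v` and `v'` commute -/
def Cl (E : PV Z K) (v : Z → Y) (E' : PV Z' K) (v' : Z' → Y') : Prop :=
  ∀ B B', MeasurableSet B → MeasurableSet B' →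
    E.p (v ⁻¹' B) * E'.p (v' ⁻¹' B') = E'.p (v' ⁻¹' B') * E.p (v ⁻¹' B)

theorem Cl.symm {v : Z → Y} {v' : Z' → Y'} (h : Cl E v E' v') : Cl E' v' E v :=
  fun B B' hB hB' => (h B' B hB' hB).symm

theorem Cl.law {v : Z → Y} {v' : Z' → Y'} (h : Cl E v E' v') {B' : Set Y'}
    (hB' : MeasurableSet B') : Law E (E'.p (v' ⁻¹' B')) v v := fun B hB => (h B B' hB hB').symm

theorem Cl.law_bc {v : Z → Y} {v' : Z' → Y'} (hv' : Measurable v') (h : Cl E v E' v')
    {f : Y' → ℂ} (hf : BM f) : Law E (E'.bc fun z => f (v' z)) v v := fun B hB =>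
  ((show Law E' (E.p (v ⁻¹' B)) v' v' from fun B' hB' => h B B' hB hB').bc hv' hv' hf).symm

theorem Cl.comp {Y₂ Y₂' : Type*} [MeasurableSpace Y₂] [MeasurableSpace Y₂'] {v : Z → Y}
    {v' : Z' → Y'} (h : Cl E v E' v') {φ : Y → Y₂} (hφ : Measurable φ) {φ' : Y' → Y₂'}
    (hφ' : Measurable φ') : Cl E (fun z => φ (v z)) E' (fun z => φ' (v' z)) :=
  fun B B' hB hB' => h _ _ (hφ hB) (hφ' hB')

theorem cl_of_law {v : Z → Y} {v' : Z' → Y'}
    (h : ∀ B', MeasurableSet B' → Law E (E'.p (v' ⁻¹' B')) v v) : Cl E v E' v' :=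
  fun B B' hB hB' => (h B' hB' B hB).symm

theorem lift_chi (hχ' : IsChi χ') {v : Z → Y} (hv : Measurable v) {v' : Z' → F'}
    (hv' : Measurable v') (h : ∀ i, Law E (E'.bc fun z => χ' i (v' z)) v v) :
    Cl E v E' v' := by
  intro B B' hB hB'
  have hm := hv hB
  refine comm_of_refl ?_
  refine law_chi' hχ' (isUn_refl (E.adj_p hm) (E.idem hm)) hv' hv' (fun i => ?_) B' hB'
  exact comm_refl (h i B hB).symm

theorem lift_psi (hψ' : IsPsi ψ') {v : Z → Y} (hv : Measurable v) {v' : Z' → F'}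
    (hv' : Measurable v') (h : ∀ s : F', Law E (E'.bc fun z => ψ' (s * v' z)) v v) :
    Cl E v E' v' := by
  intro B B' hB hB'
  have hm := hv hB
  refine comm_of_refl ?_
  refine law_add hψ' (isUn_refl (E.adj_p hm) (E.idem hm)) hv' hv' (fun s => ?_) B' hB'
  exact comm_refl (h s B hB).symm

end lift

section side

variable {G Γ K : Type*} [Group G] [Group Γ] [NormedAddCommGroup K]
  [InnerProductSpace ℂ K] [CompleteSpace K]
  {Z Z' : Type*} [MeasurableSpace Z] [MeasurableSpace Z']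
  {F F' : Type*} [NontriviallyNormedField F] [ProperSpace F] [MeasurableSpace F] [BorelSpace F]
  [NontriviallyNormedField F'] [ProperSpace F'] [MeasurableSpace F'] [BorelSpace F']
  {π : G →* (K →L[ℂ] K)} {lam : Γ →* (K →L[ℂ] K)} {W : Set (K →L[ℂ] K)} {Ω : K}
  {E : PV Z K} {E' : PV Z' K} {x y : Z → F} {x' y' : Z' → F'} {A A₁ A₂ : Set G}
  {J J' : Type*} [Countable J] [Countable J'] {χ : J → F → ℂ} {χ' : J' → F' → ℂ}
  {ψ : F → ℂ} {ψ' : F' → ℂ}

/-- the end points of one side commute with the unit of the other side -/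
theorem ends_unit (hF : Fr π lam W Ω) (hψ : IsPsi ψ) (hχ : IsChi χ) (hχ' : IsChi χ')
    (S : Side lam W E E' x y) (S' : Side lam W E' E x' y')
    (T : Tor π lam W A E x y E' x' y') (T₁ : Tor π lam W A₁ E y x E' x' y') :
    Cl E (fun z => (x z, y z)) E' (fun z => y' z - x' z) :=
  lift_chi hχ' (S.mx.prodMk S.my) S'.mr fun i =>
    (half hF hψ hχ hχ' S S' T i).prod (half hF hψ hχ hχ' S.swap S' T₁ i) S.mx S.mx S.my S.my

/-- the translation part commutes with everything on the other side, given the units do -/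
theorem law_n (S : Side lam W E E' x y) {a u : Z → F} (ha : Measurable a) (hu : Measurable u)
    {U : K →L[ℂ] K} (h1 : Law E U (fun z => y z - x z) (fun z => y z - x z))
    (h2 : Law E U (fun z => (a z, u z)) (fun z => (a z, u z))) {η : F → ℂ} (hη : BM η) (t : F) :
    U * E.bc (fun z => η (t * (u z * (a z * (y z - x z))⁻¹))) =
      E.bc (fun z => η (t * (u z * (a z * (y z - x z))⁻¹))) * U :=
  comm_bc (S.mr.prodMk (ha.prodMk hu)) (h1.prod h2 S.mr S.mr (ha.prodMk hu) (ha.prodMk hu))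
    (f := fun p : F × (F × F) => η (t * (p.2.2 * (p.2.1 * p.1)⁻¹)))
    (hη.comp (((measurable_snd.comp measurable_snd).mul
      ((measurable_fst.comp measurable_snd).mul measurable_fst).inv).const_mul t))

/-- **(3) The ratios commute.** -/
theorem ratios (hF : Fr π lam W Ω) (hψ : IsPsi ψ) (hψ' : IsPsi ψ')
    (S : Side lam W E E' x y) (S' : Side lam W E' E x' y') (T : Tor π lam W A E x y E' x' y')
    (c1 : Cl E (fun z => (x z, y z)) E' (fun z => y' z - x' z))
    (c2 : Cl E (fun z => y z - x z) E' (fun z => (x' z, y' z))) :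
    Cl E (fun z => x z * (y z - x z)⁻¹) E' (fun z => x' z * (y' z - x' z)⁻¹) := by
  have bw : ∀ t : F, BM fun z => ψ (t * (x z * (y z - x z)⁻¹)) := fun t =>
    hψ.bm.comp (S.mw.const_mul t)
  have bw' : ∀ t : F', BM fun z => ψ' (t * (x' z * (y' z - x' z)⁻¹)) := fun t =>
    hψ'.bm.comp (S'.mw.const_mul t)
  have mxy : Measurable fun z => (x z, y z) := S.mx.prodMk S.my
  have mxy' : Measurable fun z => (x' z, y' z) := S'.mx.prodMk S'.my
  have mφ : Measurable fun p : F × F => p.1 * (p.2 - p.1)⁻¹ :=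
    measurable_fst.mul (measurable_snd.sub measurable_fst).inv
  have mφ' : Measurable fun p : F' × F' => p.1 * (p.2 - p.1)⁻¹ :=
    measurable_fst.mul (measurable_snd.sub measurable_fst).inv
  have key : ∀ (t : F) (s : F'), E.bc (fun z => ψ (t * (x z * (y z - x z)⁻¹))) *
      E'.bc (fun z => ψ' (s * (x' z * (y' z - x' z)⁻¹))) *
      E.bc (fun z => conj (ψ (t * (x z * (y z - x z)⁻¹)))) *
      E'.bc (fun z => conj (ψ' (s * (x' z * (y' z - x' z)⁻¹)))) = 1 := by
    intro t s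
    have hM : InM lam W (E.bc (fun z => ψ (t * (x z * (y z - x z)⁻¹))) *
      E'.bc (fun z => ψ' (s * (x' z * (y' z - x' z)⁻¹))) *
      E.bc (fun z => conj (ψ (t * (x z * (y z - x z)⁻¹)))) *
      E'.bc (fun z => conj (ψ' (s * (x' z * (y' z - x' z)⁻¹))))) := by
      refine ⟨fun w hw => ?_, fun γ => ?_⟩
      · have d1 := S.bc_W (bw t) hw
        have d2 := S'.bc_W (bw' s) hw
        have d3 := S.bc_W (bw t).conj hw
        have d4 := S'.bc_W (bw' s).conj hw
        rw [mul_assoc _ _ w, d4, ← mul_assoc, mul_assoc _ _ w, d3, ← mul_assoc, mul_assoc _ _ w,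
          d2, ← mul_assoc, d1]
        simp only [mul_assoc]
      · obtain ⟨a, u, ha, hu, h0, h1, h2⟩ := S.gam γ
        obtain ⟨a', u', ha', hu', h0', h1', h2'⟩ := S'.gam γ
        have bn : BM fun z => ψ (t * (u z * (a z * (y z - x z))⁻¹)) :=
          hψ.bm.comp ((hu.mul (ha.mul S.mr).inv).const_mul t)
        have bn' : BM fun z => ψ' (s * (u' z * (a' z * (y' z - x' z))⁻¹)) :=
          hψ'.bm.comp ((hu'.mul (ha'.mul S'.mr).inv).const_mul s)
        have e1 := S.lamP hψ.bm hψ.add ha hu h0 h1 t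
        have e2 := S'.lamP hψ'.bm hψ'.add ha' hu' h0' h1' s
        have e3 := S.lamP hψ.bm.conj hψ.addc ha hu h0 h1 t
        have e4 := S'.lamP hψ'.bm.conj hψ'.addc ha' hu' h0' h1' s
        refine (alg3 e1 e2 e3 e4 (E.bc_comm (bw t).conj bn.conj)
          (E'.bc_comm (bw' s).conj bn'.conj) ?_ ?_ ?_ ?_ ?_).symm
        · -- `N'` and `Ns`
          have g1 : Law E (E'.bc (fun z => ψ' (s * (u' z * (a' z * (y' z - x' z))⁻¹))))
              (fun z => y z - x z) (fun z => y z - x z) := by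
            intro B hB
            refine (law_n S' ha' hu' (U := E.p ((fun z => y z - x z) ⁻¹' B)) ?_ ?_
              hψ'.bm s).symm
            · exact (c1.comp (φ := fun p : F × F => p.2 - p.1)
                (measurable_snd.sub measurable_fst) measurable_id).symm.law hB
            · intro B' hB'
              exact (h2' B' hB' _ (S.mr hB)).symm
          have g2 : Law E (E'.bc (fun z => ψ' (s * (u' z * (a' z * (y' z - x' z))⁻¹))))
              (fun z => (a z, u z)) (fun z => (a z, u z)) := law_au h2 bn'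
          exact law_n S ha hu g1 g2 hψ.bm.conj t
        · -- `N'` and `Ps`
          refine (law_n S' ha' hu' (U := E.bc fun z =>
            conj (ψ (t * (x z * (y z - x z)⁻¹)))) ?_ ?_ hψ'.bm s).symm
          · exact (c1.symm.law_bc mxy (f := fun p : F × F =>
              conj (ψ (t * (p.1 * (p.2 - p.1)⁻¹)))) (hψ.bm.conj.comp (mφ.const_mul t)))
          · exact law_au h2' (bw t).conj
        · -- `N` and `Q`
          refine (law_n S ha hu (U := E'.bc fun z =>
            ψ' (s * (x' z * (y' z - x' z)⁻¹))) ?_ ?_ hψ.bm t).symm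
          · exact (c2.law_bc mxy' (f := fun p : F' × F' =>
              ψ' (s * (p.1 * (p.2 - p.1)⁻¹))) (hψ'.bm.comp (mφ'.const_mul s)))
          · exact law_au h2 (bw' s)
        · rw [E.bc_mul bn bn.conj, ← E.bc_one]
          congr 1
          funext z
          exact hψ.unit _
        · rw [E'.bc_mul bn' bn'.conj, ← E'.bc_one]
          congr 1
          funext z
          exact hψ'.unit _
    obtain ⟨α, β, h1, b, hb, hα, hβ⟩ := T.sc
    have hs0 : Tendsto (fun n => t * (α (b n))⁻¹) atTop (𝓝 0) := by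
      have h2 : Tendsto (fun n => (α (b n))⁻¹) atTop (𝓝 0) := by
        rw [tendsto_zero_iff_norm_tendsto_zero]
        simp only [norm_inv]
        exact tendsto_inv_atTop_zero.comp hα
      simpa using h2.const_mul t
    have hs1 : Tendsto (fun n => s * (β (b n))⁻¹) atTop (𝓝 0) := by
      have h2 : Tendsto (fun n => (β (b n))⁻¹) atTop (𝓝 0) := by
        rw [tendsto_zero_iff_norm_tendsto_zero]
        simp only [norm_inv]
        exact tendsto_inv_atTop_zero.comp hβ
      simpa using h2.const_mul s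
    refine hF.eq_one hM (b := b) (S := fun n =>
      E.bc (fun z => ψ (t * (α (b n))⁻¹ * (x z * (y z - x z)⁻¹))) *
      E'.bc (fun z => ψ' (s * (β (b n))⁻¹ * (x' z * (y' z - x' z)⁻¹))) *
      E.bc (fun z => conj (ψ (t * (α (b n))⁻¹ * (x z * (y z - x z)⁻¹)))) *
      E'.bc (fun z => conj (ψ' (s * (β (b n))⁻¹ * (x' z * (y' z - x' z)⁻¹))))) (fun n => ?_) ?_
    · obtain ⟨hα0, hβ0, h2, h3⟩ := h1 _ (hb n)
      have e1 := S.piP hψ.bm h2 t
      have e2 := S'.piP hψ'.bm h3 s
      have e3 := S.piP hψ.bm.conj h2 t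
      have e4 := S'.piP hψ'.bm.conj h3 s
      rw [← mul_assoc, ← mul_assoc, ← mul_assoc, e1, mul_assoc _ (π (b n)), e2, ← mul_assoc,
        mul_assoc _ (π (b n)), e3, ← mul_assoc, mul_assoc _ (π (b n)), e4, ← mul_assoc]
    · have l1 := limP E hψ S.mw hs0
      have l2 := limPc E hψ S.mw hs0
      have l3 := limP E' hψ' S'.mw hs1
      have l4 := limPc E' hψ' S'.mw hs1
      have m1 := tendsto_mul (C := 1) (fun n => (unP E hψ S.mw (t * (α (b n))⁻¹)).opNorm)
        (A := 1) (B := 1) (fun ξ => l1 ξ) (fun ξ => l3 ξ)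
      have m2 := tendsto_mul (C := 1) (fun n => ((unP E hψ S.mw (t * (α (b n))⁻¹)).mul
        (unP E' hψ' S'.mw (s * (β (b n))⁻¹))).opNorm) m1 (B := 1) (fun ξ => l2 ξ)
      have m3 := tendsto_mul (C := 1) (fun n => (((unP E hψ S.mw (t * (α (b n))⁻¹)).mul
        (unP E' hψ' S'.mw (s * (β (b n))⁻¹))).mul (unPc E hψ S.mw (t * (α (b n))⁻¹))).opNorm) m2
        (B := 1) (fun ξ => l4 ξ) Ω
      simp only [mul_one] at m3
      exact m3
  refine lift_psi hψ' S.mw S'.mw fun s => ?_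
  refine law_add hψ (unP E' hψ' S'.mw s) S.mw S.mw fun t => ?_
  have h1 := key t s
  have h2 : E.bc (fun z => conj (ψ (t * (x z * (y z - x z)⁻¹)))) *
      E.bc (fun z => ψ (t * (x z * (y z - x z)⁻¹))) = 1 := by
    rw [E.bc_mul (bw t).conj (bw t), ← E.bc_one]
    congr 1
    funext z
    rw [mul_comm]
    exact hψ.unit _
  have h3 : E'.bc (fun z => conj (ψ' (s * (x' z * (y' z - x' z)⁻¹)))) *
      E'.bc (fun z => ψ' (s * (x' z * (y' z - x' z)⁻¹))) = 1 := by
    rw [E'.bc_mul (bw' s).conj (bw' s), ← E'.bc_one]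
    congr 1
    funext z
    rw [mul_comm]
    exact hψ'.unit _
  obtain ⟨P, hP⟩ : ∃ P, P = E.bc (fun z => ψ (t * (x z * (y z - x z)⁻¹))) := ⟨_, rfl⟩
  obtain ⟨Q, hQ⟩ : ∃ Q, Q = E'.bc (fun z => ψ' (s * (x' z * (y' z - x' z)⁻¹))) := ⟨_, rfl⟩
  obtain ⟨Ps, hPs⟩ : ∃ Ps, Ps = E.bc (fun z => conj (ψ (t * (x z * (y z - x z)⁻¹)))) := ⟨_, rfl⟩
  obtain ⟨Qs, hQs⟩ : ∃ Qs, Qs = E'.bc (fun z => conj (ψ' (s * (x' z * (y' z - x' z)⁻¹)))) :=
    ⟨_, rfl⟩
  rw [← hP, ← hQ, ← hPs, ← hQs] at h1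
  rw [← hP, ← hPs] at h2
  rw [← hQ, ← hQs] at h3
  rw [← hP, ← hQ]
  calc Q * P = P * Q * Ps * Qs * (Q * P) := by rw [h1, one_mul]
    _ = P * Q * Ps * (Qs * Q) * P := by simp only [mul_assoc]
    _ = P * Q * (Ps * P) := by rw [h3, mul_one]; simp only [mul_assoc]
    _ = P * Q := by rw [h2, mul_one]

/-- **THEOREM W, the gallery step (split residues).** -/
theorem w_step (hF : Fr π lam W Ω) (hψ : IsPsi ψ) (hψ' : IsPsi ψ') (hχ : IsChi χ)
    (hχ' : IsChi χ') (S : Side lam W E E' x y) (S' : Side lam W E' E x' y')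
    (T : Tor π lam W A E x y E' x' y') (T₁ : Tor π lam W A₁ E y x E' x' y')
    (T₂ : Tor π lam W A₂ E x y E' y' x') :
    Cl E (fun z => (x z, y z)) E' (fun z => (x' z, y' z)) := by
  have c1 := ends_unit hF hψ hχ hχ' S S' T T₁
  have c2 := (ends_unit hF hψ' hχ' hχ S' S T.symm T₂.symm).symm
  have c3 := ratios hF hψ hψ' S S' T c1 c2
  have mφ' : Measurable fun p : F' × F' => p.1 * (p.2 - p.1)⁻¹ :=
    measurable_fst.mul (measurable_snd.sub measurable_fst).inv
  have c4 : Cl E (fun z => (x z, y z)) E' (fun z => x' z * (y' z - x' z)⁻¹) :=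
    cl_of_law fun B' hB' => S.recon (c3.law hB')
      ((c2.comp measurable_id (φ' := fun p : F' × F' => p.1 * (p.2 - p.1)⁻¹) mφ').law hB')
  exact (cl_of_law fun B hB => S'.recon (c4.symm.law hB) (c1.symm.law hB)).symm

end side

/-! ### the frame of a picture -/

section pic

variable {G Γ K : Type} [Group G] [TopologicalSpace G] [Group Γ] [NormedAddCommGroup K]
  [InnerProductSpace ℂ K] [CompleteSpace K] {π : G →* (K →L[ℂ] K)} {lam : Γ →* (K →L[ℂ] K)}
  {W : Set (K →L[ℂ] K)} {Ω : K}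

theorem Fr.of_pic (hp : RC.Pic π lam W Ω)
    (htv : ∀ Y, RC.Cm W Y → (∀ γ, Y * lam γ = lam γ * Y) → ∀ h,
      ⟪π h Ω, Y (π h Ω)⟫_ℂ = ⟪Ω, Y Ω⟫_ℂ) : Fr π lam W Ω where
  adjP := hp.adjP
  adjL := hp.adjL
  Wadj := hp.Wadj
  nΩ := hp.nΩ
  tv Y hY h := htv Y hY.1 hY.2 h
  sep Y hY h := by
    refine hp.tr_zero Y hY.1 ?_
    rw [RC.TRN]
    refine ENNReal.tsum_eq_zero.2 fun γ => ?_
    have h1 : Y (lam γ Ω) = (Y * lam γ) Ω := rfl
    rw [h1, hY.2 γ]
    change ‖lam γ (Y Ω)‖ₑ ^ 2 = 0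
    rw [h, map_zero, enorm_zero, zero_pow two_ne_zero]

end pic

end Vale.Agent.P092.H767
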